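import Vale.Agent.P146.Div.Rec.Base
import Vale.Agent.P168.Cascade.Shapes

/-!
Products of tilted forms follow the kernels of the tree of replicas.
-/

noncomputable section

open MeasureTheory ProbabilityTheory Filter
open scoped BigOperators Topology

namespace Vale.Agent.P146.Div.Rec

open Vale.Agent.P157.Parisi (Path)
open Vale.Agent.P168 (Shape shapeProb shapeInit cascFilter)
open Vale.Agent.P168.Cascade (isTree_of_prob eventually_pos IsTree)

variable {k : ℕ}

/-- The product of kernels attached to a list of forms. -/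
def kL (ξ : Path) (L : List (ℕ × Fin k × Fin k)) (v : Shape ξ.r k) : ℝ :=
  (L.map fun f => kern ξ.m (fun p => hat ξ p ^ (f.1 + 1)) v f.2.1 f.2.2).prod

theorem tgt_eq (ξ : Path) (L : List (ℕ × Fin k × Fin k)) :
    tgt ξ L = ∑ v : Shape ξ.r k, shapeProb ξ.m k v * kL ξ L v := rfl

theorem kern_init {r : ℕ} (m : Fin r → ℝ) (F : Fin (r + 1) → ℝ) (v : Shape r (k + 1)) (a b : Fin k) :
    kern m F (shapeInit v) a b = kern m F v a.castSucc b.castSucc := by
  simp [kern, shapeInit]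

theorem kL_up (ξ : Path) (L : List (ℕ × Fin k × Fin k)) (v : Shape ξ.r (k + 1)) :
    kL ξ (up L) v = kL ξ L (shapeInit v) := by
  simp [kL, up, Function.comp_def, kern_init]

theorem kL_cons (ξ : Path) (f : ℕ × Fin k × Fin k) (L : List (ℕ × Fin k × Fin k))
    (v : Shape ξ.r k) :
    kL ξ (f :: L) v = kern ξ.m (fun p => hat ξ p ^ (f.1 + 1)) v f.2.1 f.2.2 * kL ξ L v := by
  simp [kL]

/-- The targets obey the recursion exactly. -/
theorem tgt_step (hK : KernelStmt) (ξ : Path) (i : ℕ) (a b : Fin k)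
    (L : List (ℕ × Fin k × Fin k)) :
    tgt ξ ((i + 1, a, b) :: L) = (∑ l, tgt ξ ((0, a, l) :: (i, l, b) :: L)) -
      (k : ℝ) * tgt ξ ((0, a.castSucc, Fin.last k) :: (i, Fin.last k, b.castSucc) :: up L) := by
  set F : Fin (ξ.r + 1) → ℝ := fun p => hat ξ p ^ (0 + 1)
  set F' : Fin (ξ.r + 1) → ℝ := fun p => hat ξ p ^ (i + 1)
  have hFF : (fun p => F p * F' p) = fun p => hat ξ p ^ (i + 1 + 1) := by
    funext p
    simp only [F, F', ← pow_add]
    congr 1
    omega
  simp only [tgt_eq, kL_cons, kL_up]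
  rw [← hFF, Finset.sum_comm, ← Finset.sum_fiberwise Finset.univ (shapeInit (r := ξ.r) (n := k))
    (fun v' => shapeProb ξ.m (k + 1) v' * _), Finset.mul_sum, ← Finset.sum_sub_distrib]
  refine Finset.sum_congr rfl fun v _ => ?_
  by_cases hp : shapeProb ξ.m k v = 0
  · have h : ∀ v' : Shape ξ.r (k + 1), shapeInit v' = v → shapeProb ξ.m (k + 1) v' = 0 :=
      fun v' h => by simp [shapeProb, h, hp]
    simp only [hp, zero_mul, Finset.sum_const_zero]
    rw [Finset.sum_eq_zero fun v' hv' => by rw [h v' (Finset.mem_filter.1 hv').2, zero_mul]]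
    simp
  · have key := hK ξ.r k ξ.m ξ.isPath.pos F F' v (isTree_of_prob hp) a b
    rw [← mul_assoc, key, sub_mul, Finset.mul_sum, Finset.sum_mul]
    congr 1
    · exact Finset.sum_congr rfl fun l _ => by ring
    · rw [Finset.mul_sum, Finset.mul_sum, Finset.sum_mul]
      refine Finset.sum_congr rfl fun v' hv' => ?_
      rw [(Finset.mem_filter.1 hv').2]
      ring

/-- The error bound at degree `d`. -/
def Bound (β : ℝ) (m d : ℕ) : Prop :=
  ∀ (k : ℕ) (L : List (ℕ × Fin k × Fin k)), (L.map Prod.fst).sum = d → ∃ C : ℝ, 0 ≤ C ∧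
    ∀ ξ : Path, ξ.q 0 = 0 → ∀ t : ℝ, |t| ≤ 1 → ∀ ε > 0, ∀ᶠ n : ℕ in atTop,
      ∀ θ ∈ Set.Icc (0 : ℝ) (Real.pi / 2), ∀ᶠ nn in cascFilter ξ.r,
        |sd ξ nn β m t θ n L - (β * Real.sin θ) ^ d * tgt ξ L| ≤
          C * (Real.sqrt (gapSq n ξ nn β m t θ) + |t|) + ε

/-- The sharper bound at positive degree. -/
def Bound' (β : ℝ) (m d : ℕ) : Prop :=
  ∀ (k : ℕ) (L : List (ℕ × Fin k × Fin k)), (L.map Prod.fst).sum = d → ∃ C : ℝ, 0 ≤ C ∧
    ∀ ξ : Path, ξ.q 0 = 0 → ∀ t : ℝ, |t| ≤ 1 → ∀ ε > 0, ∀ᶠ n : ℕ in atTop,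
      ∀ θ ∈ Set.Icc (0 : ℝ) (Real.pi / 2), ∀ᶠ nn in cascFilter ξ.r,
        |sd ξ nn β m t θ n L - (β * Real.sin θ) ^ d * tgt ξ L| ≤
          C * (|Real.sin θ| * Real.sqrt (gapSq n ξ nn β m t θ) + |t|) + ε

theorem Bound'.bound {β : ℝ} {m d : ℕ} (h : Bound' β m d) : Bound β m d := by
  intro k L hd
  obtain ⟨C, hC, H⟩ := h k L hd
  refine ⟨C, hC, fun ξ hq t ht ε hε => (H ξ hq t ht ε hε).mono fun n hn θ hθ =>
    (hn θ hθ).mono fun nn hb => hb.trans ?_⟩
  gcongr
  exact mul_le_of_le_one_left (Real.sqrt_nonneg _) (Real.abs_sin_le_one θ)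

theorem bound_zero (hS : ShapeLimitStmt) (β : ℝ) (m : ℕ) : Bound β m 0 := by
  intro k L hd
  refine ⟨L.length, Nat.cast_nonneg _, fun ξ hq t _ ε hε => ?_⟩
  filter_upwards [eventually_ne_atTop 0] with n hn0 θ _
  filter_upwards [base hS β m L (fun f hf => by have := mem_fst_le hf; omega) ξ hq t hε hn0 θ]
    with nn hb
  rw [pow_zero, one_mul]
  refine hb.trans ?_
  gcongr
  exact le_add_of_nonneg_right (abs_nonneg t)

theorem prodF_perm {n : ℕ} {L L' : List (ℕ × Fin k × Fin k)} (h : L.Perm L') (g : Cfg n)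
    (s : Fin k → Fin n → Bool) : prodF L g s = prodF L' g s :=
  (h.map _).prod_eq

theorem bound_succ (hK : KernelStmt) {β : ℝ} (hβ : 0 ≤ β) {m d : ℕ} (H : Bound β m d) :
    Bound' β m (d + 1) := by
  intro k L hd
  obtain ⟨f, hf, hf0⟩ : ∃ f ∈ L, f.1 ≠ 0 := by
    by_contra! h
    have : (L.map Prod.fst).sum = 0 := List.sum_eq_zero (by simpa using fun a b c hm => h _ hm)
    omega
  obtain ⟨i, hi⟩ : ∃ i, f.1 = i + 1 := ⟨f.1 - 1, by omega⟩
  obtain ⟨j, a, b⟩ := f
  simp only at hi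
  subst hi
  set L' := L.erase (i + 1, a, b)
  have hperm : L.Perm ((i + 1, a, b) :: L') := List.perm_cons_erase hf
  have hd' : i + (L'.map Prod.fst).sum = d := by
    have := (hperm.map Prod.fst).sum_eq
    simp only [List.map_cons, List.sum_cons] at this
    omega
  have hupdeg : ((up L').map Prod.fst).sum = (L'.map Prod.fst).sum := by
    simp [up, Function.comp_def]
  obtain ⟨C₀, hC₀, H₀⟩ := step hβ m i a b L'
  choose C hC Hl using fun l : Fin k => H k ((0, a, l) :: (i, l, b) :: L') (by simpa using hd')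
  obtain ⟨C₁, hC₁, H₁⟩ := H (k + 1)
    ((0, a.castSucc, Fin.last k) :: (i, Fin.last k, b.castSucc) :: up L')
    (by simpa [hupdeg] using hd')
  set S := (∑ l, C l) + (k : ℝ) * C₁
  have hS0 : 0 ≤ S := add_nonneg (Finset.sum_nonneg fun l _ => hC l) (by positivity)
  refine ⟨C₀ + β * S, by positivity, fun ξ hq t ht ε hε => ?_⟩
  set η := ε / (1 + 2 * β * k) with hη
  have hη0 : 0 < η := by positivity
  filter_upwards [H₀ η hη0, eventually_all.2 fun l => Hl l ξ hq t ht η hη0,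
    H₁ ξ hq t ht η hη0] with n h0 hl h1 θ hθ
  filter_upwards [eventually_pos ξ.r, eventually_all.2 fun l => hl l θ hθ, h1 θ hθ]
    with nn hn hl h1
  have h0 := h0 ξ nn hn t θ ht
  have esd : sd ξ nn β m t θ n L = sd ξ nn β m t θ n ((i + 1, a, b) :: L') := by
    unfold sd
    simp only [prodF_perm hperm]
  have etgt : tgt ξ L = tgt ξ ((i + 1, a, b) :: L') := by
    unfold tgt
    exact Finset.sum_congr rfl fun v _ => congrArg _ (hperm.map _).prod_eq
  rw [esd, etgt, tgt_step hK, pow_succ']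
  set c := β * Real.sin θ
  set G := Real.sqrt (gapSq n ξ nn β m t θ)
  set s₀ := sd ξ nn β m t θ n ((i + 1, a, b) :: L')
  set u : Fin k → ℝ := fun l => sd ξ nn β m t θ n ((0, a, l) :: (i, l, b) :: L')
  set w : Fin k → ℝ := fun l => tgt ξ ((0, a, l) :: (i, l, b) :: L')
  set u₁ := sd ξ nn β m t θ n
    ((0, a.castSucc, Fin.last k) :: (i, Fin.last k, b.castSucc) :: up L')
  set w₁ := tgt ξ ((0, a.castSucc, Fin.last k) :: (i, Fin.last k, b.castSucc) :: up L')
  have hsum : |(∑ l, (u l - c ^ d * w l)) - (k : ℝ) * (u₁ - c ^ d * w₁)| ≤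
      S * (G + |t|) + 2 * k * η := by
    calc |(∑ l, (u l - c ^ d * w l)) - (k : ℝ) * (u₁ - c ^ d * w₁)|
        ≤ |∑ l, (u l - c ^ d * w l)| + |(k : ℝ) * (u₁ - c ^ d * w₁)| := abs_sub _ _
      _ ≤ (∑ l, (C l * (G + |t|) + η)) + (k : ℝ) * (C₁ * (G + |t|) + η) := by
          rw [abs_mul, Nat.abs_cast]
          exact add_le_add ((Finset.abs_sum_le_sum_abs _ _).trans
            (Finset.sum_le_sum fun l _ => hl l)) (mul_le_mul_of_nonneg_left h1 (Nat.cast_nonneg k))
      _ = S * (G + |t|) + 2 * k * η := by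
          simp only [S, Finset.sum_add_distrib, ← Finset.sum_mul, Finset.sum_const, Finset.card_univ,
            Fintype.card_fin, nsmul_eq_mul]
          ring
  have hc : |c| = β * |Real.sin θ| := by rw [abs_mul, abs_of_nonneg hβ]
  have e : s₀ - c * c ^ d * ((∑ l, w l) - (k : ℝ) * w₁) =
      (s₀ - c * ((∑ l, u l) - (k : ℝ) * u₁)) +
        c * ((∑ l, (u l - c ^ d * w l)) - (k : ℝ) * (u₁ - c ^ d * w₁)) := by
    rw [Finset.sum_sub_distrib, ← Finset.mul_sum]
    ring
  rw [e]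
  refine (abs_add_le _ _).trans ?_
  rw [abs_mul, hc]
  have hsin := Real.abs_sin_le_one θ
  have hs0 := abs_nonneg (Real.sin θ)
  have ht0 := abs_nonneg t
  have hG := Real.sqrt_nonneg (gapSq n ξ nn β m t θ)
  have e2 : C₀ * |t| + η + β * |Real.sin θ| * (S * (G + |t|) + 2 * k * η) ≤
      (C₀ + β * S) * (|Real.sin θ| * G + |t|) + ε := by
    have q1 : β * |Real.sin θ| * (S * |t|) ≤ β * S * |t| := by
      calc β * |Real.sin θ| * (S * |t|) = |Real.sin θ| * (β * S * |t|) := by ring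
        _ ≤ _ := mul_le_of_le_one_left (by positivity) hsin
    have q2 : β * |Real.sin θ| * (2 * k * η) ≤ β * (2 * k * η) :=
      mul_le_mul_of_nonneg_right (mul_le_of_le_one_right hβ hsin) (by positivity)
    have q3 : η + β * (2 * k * η) = ε := by
      rw [hη]; field_simp
    have q4 : 0 ≤ C₀ * (|Real.sin θ| * G) := by positivity
    nlinarith
  exact (add_le_add h0 (mul_le_mul_of_nonneg_left hsum (by positivity))).trans e2

theorem bound_all (hS : ShapeLimitStmt) (hK : KernelStmt) {β : ℝ} (hβ : 0 ≤ β) (m : ℕ) :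
    ∀ d, Bound β m d
  | 0 => bound_zero hS β m
  | d + 1 => (bound_succ hK hβ (bound_all hS hK hβ m d)).bound

/-- Products of tilted forms follow the kernels of the tree of replicas. -/
theorem recursion (hS : ShapeLimitStmt) (hK : KernelStmt) : RecStmt := by
  intro β hβ m _ k L hL
  obtain ⟨d, hd⟩ : ∃ d, (L.map Prod.fst).sum = d + 1 := ⟨(L.map Prod.fst).sum - 1, by omega⟩
  obtain ⟨C, _, H⟩ := bound_succ hK hβ.le (bound_all hS hK hβ.le m d) k L hd
  refine ⟨C, fun ξ hq t ht ε hε => ?_⟩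
  rw [hd]
  exact H ξ hq t ht ε hε

end Vale.Agent.P146.Div.Rec
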