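import Vale.Agent.P146.Div.Rec.Step
import Vale.Agent.P146.Div.Statements
import Vale.Agent.P168.Upper.Limit
import Vale.Agent.P168.Cascade.MomentLimit

/-!
Degree zero: products of overlaps follow the products of the first kernel.
-/

noncomputable section

open MeasureTheory ProbabilityTheory Filter
open scoped BigOperators Topology

namespace Vale.Agent.P146.Div.Rec

open Vale.Agent.P157.Parisi (Path)
open Vale.Agent.P168 (Shape shapeProb cascFilter)
open Vale.Agent.P168.Cascade (GoodTree eventually_pos)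

variable {n k : ℕ} {ξ : Path} {nn : Fin ξ.r → ℕ} {β : ℝ} {m : ℕ} {t θ : ℝ}

theorem q_mem (ξ : Path) (p : Fin (ξ.r + 1)) : 0 ≤ ξ.q p ∧ ξ.q p ≤ 1 :=
  ⟨ξ.isPath.nonneg.trans (ξ.isPath.mono (Fin.zero_le p)),
    (ξ.isPath.mono (Fin.le_last p)).trans ξ.isPath.le_one⟩

theorem hat_diff (ξ : Path) (i : Fin ξ.r) :
    hat ξ i.castSucc - hat ξ i.succ = ξ.m i * (ξ.q i.succ - ξ.q i.castSucc) := by
  unfold hat
  rw [add_sub_add_left_eq_sub, ← Finset.sum_sub_distrib, Finset.sum_eq_single i]
  · simp
  · intro j _ hj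
    have hj' : j.val ≠ i.val := fun h => hj (Fin.ext h)
    simp only [Fin.val_castSucc, Fin.val_succ]
    split_ifs <;> first | omega | simp
  · simp

theorem kOff_hat (ξ : Path) (p : Fin (ξ.r + 1)) :
    kOff ξ.m (fun p => hat ξ p ^ 1) p = ξ.q p - ξ.q 0 := by
  have e : ∀ i : Fin ξ.r, (hat ξ i.castSucc ^ 1 - hat ξ i.succ ^ 1) / ξ.m i =
      ξ.q i.succ - ξ.q i.castSucc := fun i => by
    rw [pow_one, pow_one, hat_diff, mul_div_cancel_left₀ _ (ξ.isPath.pos i).ne']
  simp only [kOff, e]
  induction p using Fin.induction with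
  | zero => simp
  | succ i ih =>
    have hs : ∀ j : Fin ξ.r, (if j.val < i.succ.val then ξ.q j.succ - ξ.q j.castSucc else 0) =
        (if j.val < i.castSucc.val then ξ.q j.succ - ξ.q j.castSucc else 0) +
          if j = i then ξ.q j.succ - ξ.q j.castSucc else 0 := by
      intro j
      simp only [Fin.val_succ, Fin.val_castSucc, Fin.ext_iff]
      split_ifs <;> first | omega | simp
    rw [Finset.sum_congr rfl fun j _ => hs j, Finset.sum_add_distrib, ih, Finset.sum_ite_eq']
    simp

theorem hat_last (ξ : Path) : hat ξ (Fin.last ξ.r) = 1 - ξ.q (Fin.last ξ.r) := by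
  unfold hat
  simp [fun i : Fin ξ.r => Nat.not_le.2 i.isLt]

theorem kern_hat (hq : ξ.q 0 = 0) (v : Shape ξ.r k) (a b : Fin k) :
    kern ξ.m (fun p => hat ξ p ^ (0 + 1)) v a b = if a = b then 1 else ξ.q (v a b) := by
  rw [zero_add, kern, kDiag, kOff_hat, kOff_hat, hq, pow_one, hat_last]
  split_ifs <;> ring

/-- The limit of a product of kernels over a tree of replicas. -/
def tgt (ξ : Path) (L : List (ℕ × Fin k × Fin k)) : ℝ :=
  ∑ v : Shape ξ.r k, shapeProb ξ.m k v *
    (L.map fun f => kern ξ.m (fun p => hat ξ p ^ (f.1 + 1)) v f.2.1 f.2.2).prod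

/-- The product of the first kernel over a tree. -/
def kProd (ξ : Path) (L : List (ℕ × Fin k × Fin k)) (v : Shape ξ.r k) : ℝ :=
  (L.map fun f => if f.2.1 = f.2.2 then (1 : ℝ) else ξ.q (v f.2.1 f.2.2)).prod

theorem abs_kProd_le (ξ : Path) : ∀ (L : List (ℕ × Fin k × Fin k)) (v : Shape ξ.r k),
    |kProd ξ L v| ≤ 1
  | [], v => by simp [kProd]
  | f :: L, v => by
    simp only [kProd, List.map_cons, List.prod_cons, abs_mul]
    refine mul_le_one₀ ?_ (abs_nonneg _) (abs_kProd_le ξ L v)
    split_ifs
    · simp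
    · rw [abs_of_nonneg (q_mem ξ _).1]; exact (q_mem ξ _).2

theorem tgt_zero (hq : ξ.q 0 = 0) (L : List (ℕ × Fin k × Fin k)) (hL : ∀ f ∈ L, f.1 = 0) :
    tgt ξ L = ∑ v : Shape ξ.r k, shapeProb ξ.m k v * kProd ξ L v := by
  refine Finset.sum_congr rfl fun v _ => congrArg _ ?_
  refine congrArg List.prod (List.map_congr_left fun f hf => ?_)
  rw [hL f hf]
  exact kern_hat hq v _ _

theorem sum_pair {α : Type*} [Fintype α] [DecidableEq α] (p : α → ℝ) (hp : ∑ y, p y = 1)
    {a b : Fin k} (hab : a ≠ b) (φ : α → α → ℝ) :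
    ∑ x : Fin k → α, (∏ c, p (x c)) * φ (x a) (x b) =
      ∑ x : Fin 2 → α, (∏ c, p (x c)) * φ (x 0) (x 1) := by
  have key : ∀ (j : ℕ) (a b : Fin j), a ≠ b → ∑ x : Fin j → α, (∏ c, p (x c)) * φ (x a) (x b) =
      ∑ y, ∑ y', p y * p y' * φ y y' := by
    intro j a b hab
    set f : α → α → Fin j → α → ℝ := fun y y' c u =>
      p u * ((if c = a then (if u = y then 1 else 0) else 1) *
        if c = b then (if u = y' then 1 else 0) else 1)
    have hf : ∀ y y', ∑ x : Fin j → α, ∏ c, f y y' c (x c) = p y * p y' := by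
      intro y y'
      rw [← Fintype.prod_sum fun c u => f y y' c u]
      rw [← Finset.prod_subset (Finset.subset_univ {a, b}) fun c _ hc => ?_]
      · rw [Finset.prod_pair hab]
        simp [f, hab, hab.symm]
      · simp only [Finset.mem_insert, Finset.mem_singleton, not_or] at hc
        simp [f, hc.1, hc.2, hp]
    have hx : ∀ x : Fin j → α, (∏ c, p (x c)) * φ (x a) (x b) =
        ∑ y, ∑ y', (∏ c, f y y' c (x c)) * φ y y' := by
      intro x
      rw [Fintype.sum_eq_single (x a), Fintype.sum_eq_single (x b)]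
      · congr 1
        refine Finset.prod_congr rfl fun c _ => ?_
        by_cases hca : c = a
        · subst hca; simp [f, hab]
        · by_cases hcb : c = b
          · subst hcb; simp [f, hca]
          · simp [f, hca, hcb]
      · intro y' hy'
        rw [Finset.prod_eq_zero (Finset.mem_univ b) (by simp [f, hy'.symm]), zero_mul]
      · intro y hy
        refine Finset.sum_eq_zero fun y' _ => ?_
        rw [Finset.prod_eq_zero (Finset.mem_univ a) (by simp [f, hy.symm]), zero_mul]
    simp only [hx]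
    rw [Finset.sum_comm]
    refine Finset.sum_congr rfl fun y _ => ?_
    rw [Finset.sum_comm]
    exact Finset.sum_congr rfl fun y' _ => by rw [← Finset.sum_mul, hf]
  rw [key k a b hab, key 2 0 1 (by decide)]

/-- The squared gap of a pair of replicas. -/
def gap2 (ξ : Path) (nn : Fin ξ.r → ℕ) (g : Cfg n) (y y' : X ξ n nn) : ℝ :=
  (bform 0 g y.1 y'.1 - ξ.q (Fin.ofNat (ξ.r + 1) (Vale.Agent.P168.Cascade.leafMeet ξ.r nn y.2 y'.2))) ^ 2

theorem abs_prodF_zero_le (g : Cfg n) : ∀ (L : List (ℕ × Fin k × Fin k)), (∀ f ∈ L, f.1 = 0) →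
    ∀ s : Fin k → Fin n → Bool, |prodF L g s| ≤ 1
  | [], _, s => by simp [prodF_nil]
  | f :: L, hL, s => by
    rw [prodF_cons, abs_mul, hL f List.mem_cons_self]
    exact mul_le_one₀ (abs_bform_zero_le g _ _) (abs_nonneg _)
      (abs_prodF_zero_le g L (fun f hf => hL f (List.mem_cons_of_mem _ hf)) s)

theorem avg_abs_diff_le (hn0 : n ≠ 0) (hn : ∀ i, 0 < nn i) {z : Z ξ n nn}
    (hz : GoodTree ξ.r nn z.1) (g : Cfg n) {lam : ℝ} (hlam : 0 < lam) :
    ∀ L : List (ℕ × Fin k × Fin k), (∀ f ∈ L, f.1 = 0) →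
      avg β m t θ z g (fun x : Fin k → X ξ n nn =>
          |prodF L g (fun a => (x a).1) - kProd ξ L (leafShape nn fun a => (x a).2)|) ≤
        L.length * ((avg β m t θ z g fun x : Fin 2 → X ξ n nn => gap2 ξ nn g (x 0) (x 1)) /
          (2 * lam) + lam / 2)
  | [], _ => by simp [avg, prodF_nil, kProd]
  | f :: L, hL => by
    classical
    set G := avg β m t θ z g fun x : Fin 2 → X ξ n nn => gap2 ξ nn g (x 0) (x 1)
    have hG : 0 ≤ G :=
      Finset.sum_nonneg fun x _ => mul_nonneg (W_nonneg hz g x) (sq_nonneg _)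
    have hL' : ∀ f ∈ L, f.1 = 0 := fun f hf => hL f (List.mem_cons_of_mem _ hf)
    set u : (Fin k → X ξ n nn) → ℝ := fun x => bform 0 g (x f.2.1).1 (x f.2.2).1
    set v : (Fin k → X ξ n nn) → ℝ := fun x =>
      if f.2.1 = f.2.2 then (1 : ℝ) else ξ.q (leafShape nn (fun a => (x a).2) f.2.1 f.2.2)
    have hsplit : ∀ x : Fin k → X ξ n nn,
        |prodF (f :: L) g (fun a => (x a).1) - kProd ξ (f :: L) (leafShape nn fun a => (x a).2)| ≤
          |u x - v x| +
            |prodF L g (fun a => (x a).1) - kProd ξ L (leafShape nn fun a => (x a).2)| := by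
      intro x
      simp only [prodF_cons, hL f List.mem_cons_self]
      simp only [kProd, List.map_cons, List.prod_cons]
      set A := prodF L g fun a => (x a).1
      set B := (L.map fun f => if f.2.1 = f.2.2 then (1 : ℝ)
        else ξ.q (leafShape nn (fun a => (x a).2) f.2.1 f.2.2)).prod
      have hA : |A| ≤ 1 := abs_prodF_zero_le g L hL' _
      have hv : |v x| ≤ 1 := by
        simp only [v]
        split_ifs
        · simp
        · rw [abs_of_nonneg (q_mem ξ _).1]; exact (q_mem ξ _).2
      calc |u x * A - v x * B| = |(u x - v x) * A + v x * (A - B)| := by ring_nf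
        _ ≤ |u x - v x| * |A| + |v x| * |A - B| := by
          refine (abs_add_le _ _).trans (le_of_eq ?_)
          rw [abs_mul, abs_mul]
        _ ≤ |u x - v x| + |A - B| := add_le_add (mul_le_of_le_one_right (abs_nonneg _) hA)
            (mul_le_of_le_one_left (abs_nonneg _) hv)
    have hf : avg β m t θ z g (fun x : Fin k → X ξ n nn => |u x - v x|) ≤
        G / (2 * lam) + lam / 2 := by
      by_cases hab : f.2.1 = f.2.2
      · refine le_trans (le_of_eq ?_) (by positivity : (0 : ℝ) ≤ G / (2 * lam) + lam / 2)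
        simp [u, v, hab, bform_zero_self hn0, avg]
      · set φ : X ξ n nn → X ξ n nn → ℝ := fun y y' => gap2 ξ nn g y y' / (2 * lam) + lam / 2
        have hle : ∀ x : Fin k → X ξ n nn, |u x - v x| ≤ φ (x f.2.1) (x f.2.2) := by
          intro x
          simp only [u, v, hab, if_false, φ, gap2, leafShape]
          set e := bform 0 g (x f.2.1).1 (x f.2.2).1 - ξ.q _
          rw [div_add_div _ _ (by positivity) two_ne_zero, le_div_iff₀ (by positivity)]
          nlinarith [sq_nonneg (|e| - lam), sq_abs e]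
        refine (Finset.sum_le_sum fun x _ =>
          mul_le_mul_of_nonneg_left (hle x) (W_nonneg hz g x)).trans (le_of_eq ?_)
        simp only [W]
        rw [sum_pair _ (sum_pW hn hz g) hab φ]
        simp only [φ, mul_add, Finset.sum_add_distrib, mul_div_assoc', ← Finset.sum_div,
          ← Finset.sum_mul]
        congr 1
        rw [show ∑ x : Fin 2 → X ξ n nn, ∏ c, pW β m t θ z g (x c) = 1 by
          rw [← Fintype.sum_pow (fun y => pW β m t θ z g y) 2, sum_pW hn hz, one_pow]]
        rw [one_mul]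
    refine (Finset.sum_le_sum fun x _ =>
      mul_le_mul_of_nonneg_left (hsplit x) (W_nonneg hz g x)).trans ?_
    rw [Finset.sum_congr rfl fun x _ => mul_add _ _ _, Finset.sum_add_distrib, List.length_cons,
      Nat.cast_succ, add_mul, one_mul, add_comm]
    exact add_le_add (avg_abs_diff_le hn0 hn hz g hlam L hL') hf

/-- Products of overlaps against the products of their limits at a finite cascade. -/
theorem base_at (hn0 : n ≠ 0) (hn : ∀ i, 0 < nn i) (L : List (ℕ × Fin k × Fin k))
    (hL : ∀ f ∈ L, f.1 = 0) {ε : ℝ} (hε : 0 < ε) :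
    |sd ξ nn β m t θ n L -
        stateMean (n := n) ξ nn β m t θ
          (fun _ (x : Fin k → X ξ n nn) => kProd ξ L (leafShape nn fun a => (x a).2))| ≤
      L.length * (Real.sqrt (gapSq n ξ nn β m t θ) + ε) := by
  obtain ⟨e1, i1⟩ := state_eq (β := β) (m := m) (t := t) (θ := θ)
    (Φ := fun g (x : Fin k → X ξ n nn) => prodF L g fun a => (x a).1)
    (fun _ => (tame_prodF L _).continuous.measurable) (B := fun _ => 1) (fun _ => zero_le_one)
    (integrable_const _) fun g _ => abs_prodF_zero_le g L hL _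
  obtain ⟨e2, i2⟩ := state_eq (β := β) (m := m) (t := t) (θ := θ)
    (Φ := fun (_ : Cfg n) (x : Fin k → X ξ n nn) => kProd ξ L (leafShape nn fun a => (x a).2))
    (fun _ => measurable_const) (B := fun _ => 1) (fun _ => zero_le_one) (integrable_const _)
    fun _ _ => abs_kProd_le ξ L _
  obtain ⟨e3, i3⟩ := state_eq (β := β) (m := m) (t := t) (θ := θ)
    (Φ := fun g (x : Fin 2 → X ξ n nn) => gap2 ξ nn g (x 0) (x 1))
    (fun x => (((Tame.bform 0 _ _).continuous.sub continuous_const).pow 2).measurable)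
    (B := fun _ => 4) (fun _ => by norm_num) (integrable_const _) fun g x => by
      unfold gap2
      have h := abs_le.1 (abs_bform_zero_le g (x 0).1 (x 1).1)
      have hq := q_mem ξ (Fin.ofNat (ξ.r + 1)
        (Vale.Agent.P168.Cascade.leafMeet ξ.r nn (x 0).2 (x 1).2))
      rw [abs_of_nonneg (sq_nonneg _)]
      nlinarith
  have e3' : gapSq n ξ nn β m t θ = _ := e3
  set lam := Real.sqrt (gapSq n ξ nn β m t θ) + ε with hlam
  have hl : 0 < lam := add_pos_of_nonneg_of_pos (Real.sqrt_nonneg _) hε
  rw [show sd ξ nn β m t θ n L = _ from e1, e2, ← integral_sub i1 i2]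
  refine (abs_integral_le_integral_abs.trans (integral_mono_ae
    (g := fun z => (L.length : ℝ) * (mean (fun g => avg β m t θ z g
      fun x : Fin 2 → X ξ n nn => gap2 ξ nn g (x 0) (x 1)) / (2 * lam) + lam / 2))
    (i1.sub i2).abs (((i3.div_const _).add (integrable_const _)).const_mul _) ?_)).trans ?_
  · filter_upwards [ae_good] with z hz
    have j1 : Integrable (fun g => avg β m t θ z g fun x : Fin k → X ξ n nn =>
        prodF L g fun a => (x a).1) (gauss (Edge n)) := (tame1_avg_prodF hn hz L).integrable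
    have j2 : Integrable (fun g => avg β m t θ z g fun x : Fin k → X ξ n nn =>
        kProd ξ L (leafShape nn fun a => (x a).2)) (gauss (Edge n)) :=
      (Tame1.sum _ fun x _ => (tame1_W hn hz x).mul (Tame1.of_tame (Tame.const _))).integrable
    have j3 : Integrable (fun g => avg β m t θ z g fun x : Fin 2 → X ξ n nn =>
        gap2 ξ nn g (x 0) (x 1)) (gauss (Edge n)) :=
      (Tame1.sum _ fun x _ => (tame1_W hn hz x).mul (Tame1.of_tame
        (((Tame.bform 0 _ _).sub (Tame.const _)).pow 2))).integrable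
    simp only [Pi.sub_apply, mean]
    rw [← integral_sub j1 j2]
    refine abs_integral_le_integral_abs.trans ((integral_mono
      (g := fun g => (L.length : ℝ) * ((avg β m t θ z g fun x : Fin 2 → X ξ n nn =>
        gap2 ξ nn g (x 0) (x 1)) / (2 * lam) + lam / 2)) (j1.sub j2).abs
      (((j3.div_const _).add (integrable_const _)).const_mul _) fun g => ?_).trans (le_of_eq ?_))
    · simp only [Pi.sub_apply, avg, ← Finset.sum_sub_distrib, ← mul_sub]
      refine ((Finset.abs_sum_le_sum_abs _ _).trans (le_of_eq ?_)).trans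
        (avg_abs_diff_le hn0 hn hz g hl L hL)
      exact Finset.sum_congr rfl fun x _ => by rw [abs_mul, abs_of_nonneg (W_nonneg hz g x)]
    · rw [integral_const_mul]
      rw [integral_add (j3.div_const _) (integrable_const _), integral_div, integral_const,
        probReal_univ, one_smul]
  · rw [integral_const_mul, integral_add (i3.div_const _) (integrable_const _), integral_div,
      integral_const, probReal_univ, one_smul, ← e3']
    refine mul_le_mul_of_nonneg_left ?_ (Nat.cast_nonneg _)
    set G := gapSq n ξ nn β m t θ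
    have hG : G ≤ Real.sqrt G * lam := by
      rcases le_or_gt G 0 with h | h
      · exact h.trans (mul_nonneg (Real.sqrt_nonneg _) hl.le)
      · calc G = Real.sqrt G * Real.sqrt G := (Real.mul_self_sqrt h.le).symm
          _ ≤ _ := mul_le_mul_of_nonneg_left (by linarith) (Real.sqrt_nonneg _)
    have : G / (2 * lam) ≤ Real.sqrt G / 2 := by
      rw [div_le_iff₀ (by positivity)]; linarith
    linarith

theorem measurable_shapeMean (G : Shape ξ.r k → ℝ) :
    Measurable fun g : Cfg n =>
      shapeMean ξ nn (interpH β m t θ g) (β * Real.cos θ) G := by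
  have hm : Measurable fun p : Cfg n × Z ξ n nn => avg β m t θ p.2 p.1
      fun x : Fin k → X ξ n nn => G (leafShape nn fun a => (x a).2) :=
    Finset.measurable_sum _ fun x _ =>
      (Finset.measurable_prod _ fun a _ => measurable_pW (x a)).mul measurable_const
  exact hm.stronglyMeasurable.integral_prod_right'.measurable

/-- Degree zero. -/
theorem base (hS : ShapeLimitStmt) (β : ℝ) (m : ℕ) (L : List (ℕ × Fin k × Fin k))
    (hL : ∀ f ∈ L, f.1 = 0) (ξ : Path) (hq : ξ.q 0 = 0) (t : ℝ) {ε : ℝ} (hε : 0 < ε) {n : ℕ}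
    (hn0 : n ≠ 0) (θ : ℝ) :
    ∀ᶠ nn in cascFilter ξ.r,
      |sd ξ nn β m t θ n L - tgt ξ L| ≤
        L.length * Real.sqrt (gapSq n ξ nn β m t θ) + ε := by
  set T := ∑ v : Shape ξ.r k, shapeProb ξ.m k v * kProd ξ L v with hT
  set B := max 1 |T| with hBdef
  have hlim : Tendsto (fun nn => stateMean (n := n) ξ nn β m t θ
      (fun _ (x : Fin k → X ξ n nn) => kProd ξ L (leafShape nn fun a => (x a).2)))
      (cascFilter ξ.r) (𝓝 T) := by
    have h := Vale.Agent.P168.Upper.tendsto_integral_cascFilter (gauss (Edge n))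
      (fun nn g => shapeMean ξ nn (interpH β m t θ g) (β * Real.cos θ) (kProd ξ L))
      (fun _ => T) B (fun nn => measurable_shapeMean _) measurable_const (fun nn g => ?_)
      (fun _ => le_max_right _ _)
      (fun g => hS ξ n k (interpH β m t θ g) (β * Real.cos θ) (kProd ξ L))
    · rwa [integral_const, probReal_univ, one_smul] at h
    · refine le_trans ?_ (le_max_left _ _)
      unfold shapeMean
      rw [← Real.norm_eq_abs]
      refine (norm_integral_le_of_norm_le_const (C := 1) ?_).trans
        (le_of_eq (by rw [probReal_univ, mul_one]))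
      filter_upwards [ae_good] with z hz
      exact abs_avg_le (β := β) (m := m) (t := t) (θ := θ) hz g zero_le_one
        fun x => abs_kProd_le ξ L _
  filter_upwards [eventually_pos ξ.r,
    Metric.tendsto_nhds.1 hlim (ε / 2) (half_pos hε)] with nn hn hd
  rw [Real.dist_eq] at hd
  rw [tgt_zero hq L hL, ← hT]
  have hε' : (0 : ℝ) < ε / (2 * ((L.length : ℝ) + 1)) := by positivity
  have hb := base_at (β := β) (m := m) (t := t) (θ := θ) hn0 hn L hL hε'
  have hl : (L.length : ℝ) * (ε / (2 * ((L.length : ℝ) + 1))) ≤ ε / 2 := by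
    rw [← mul_div_assoc, div_le_div_iff₀ (by positivity) two_pos]
    nlinarith
  rw [mul_add] at hb
  exact (abs_sub_le _ _ _).trans (by linarith)

end Vale.Agent.P146.Div.Rec
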