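import Vale.Agent.P146.Div.Defs
import Vale.Agent.P146.Event
import Vale.Agent.P146.DabRules

/-!
The normalised bilinear forms of the Chebyshev matrices: bounds, derivatives and contractions.
-/

noncomputable section

open MeasureTheory ProbabilityTheory
open scoped BigOperators

namespace Vale.Agent.P146.Div.Rec

variable {n : ℕ}

/-- The image of a configuration under the `m`-th Chebyshev matrix. -/
def uVec (m : ℕ) (g : Cfg n) (s : Fin n → Bool) (a : Fin n) : ℝ :=
  ∑ b, uEnt m a b g * spin (s b)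

theorem spin_sq (b : Bool) : spin b * spin b = 1 := by cases b <;> simp [spin]

theorem abs_spin (b : Bool) : |spin b| = 1 := by cases b <;> simp [spin]

theorem sqrt_spins (s : Fin n → Bool) : Real.sqrt (∑ a, spin (s a) ^ 2) = Real.sqrt n := by
  simp [sq, spin_sq]

theorem bform_eq_uVec (m : ℕ) (g : Cfg n) (s s' : Fin n → Bool) :
    bform m g s s' = (∑ a, spin (s a) * uVec m g s' a) / n := by
  simp only [bform, uVec, Finset.mul_sum, mul_assoc]

theorem bform_comm (m : ℕ) (g : Cfg n) (s s' : Fin n → Bool) :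
    bform m g s s' = bform m g s' s := by
  simp only [bform]
  rw [Finset.sum_comm]
  congr 1
  refine Finset.sum_congr rfl fun a _ => Finset.sum_congr rfl fun b _ => ?_
  rw [uEnt_symm m b a]
  ring

theorem bform_zero (g : Cfg n) (s s' : Fin n → Bool) :
    bform 0 g s s' = (∑ a, spin (s a) * spin (s' a)) / n := by
  simp only [bform, uEnt_zero, mul_ite, mul_one, mul_zero, ite_mul, zero_mul, Finset.sum_ite_eq,
    Finset.mem_univ, if_true]

theorem bform_zero_self (hn : n ≠ 0) (g : Cfg n) (s : Fin n → Bool) : bform 0 g s s = 1 := by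
  have : (n : ℝ) ≠ 0 := by exact_mod_cast hn
  simp [bform_zero, spin_sq, this]

theorem abs_bform_zero_le (g : Cfg n) (s s' : Fin n → Bool) : |bform 0 g s s'| ≤ 1 := by
  rw [bform_zero, abs_div, Nat.abs_cast]
  refine div_le_one_of_le₀ ((Finset.abs_sum_le_sum_abs _ _).trans (le_of_eq ?_))
    (Nat.cast_nonneg _)
  simp [abs_mul, abs_spin]

theorem abs_bform_le {m : ℕ} {g : Cfg n} {M : ℝ} (hM : 0 ≤ M)
    (h : BilinBd (cheb (mat g) m) M) (s s' : Fin n → Bool) : |bform m g s s'| ≤ M := by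
  rw [bform, abs_div, Nat.abs_cast]
  refine div_le_of_le_mul₀ (Nat.cast_nonneg _) hM ?_
  refine (h (fun a => spin (s a)) fun b => spin (s' b)).trans (le_of_eq ?_)
  rw [sqrt_spins, sqrt_spins, mul_assoc, Real.mul_self_sqrt (Nat.cast_nonneg _)]

/-- The good bound. -/
theorem bform_good {K : ℕ} {g : Cfg n} (hg : Good K g) {m : ℕ} (hm : m ≤ K)
    (s s' : Fin n → Bool) : |bform m g s s'| ≤ 2 * ((K : ℝ) + 1) :=
  abs_bform_le (by positivity)
    ((bilinBd_cheb_good hg (show m ≤ 2 * K by omega)).mono (by gcongr)) s s'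

/-- The bound everywhere. -/
theorem bform_crude {K : ℕ} (g : Cfg n) {m : ℕ} (hm : m ≤ K) (s s' : Fin n → Bool) :
    |bform m g s s'| ≤ msize g ^ K :=
  abs_bform_le (pow_nonneg (zero_le_one.trans (one_le_msize g)) _)
    ((bilinBd_cheb_crude g m).mono (pow_le_pow_right₀ (one_le_msize g) hm)) s s'

theorem _root_.Vale.Agent.P146.Tame.bform (m : ℕ) (s s' : Fin n → Bool) :
    Tame (fun g => P146.Div.bform m g s s') := by
  have h : (fun g : Cfg n => P146.Div.bform m g s s') =
      fun g => (n : ℝ)⁻¹ * ∑ a, ∑ b, (spin (s a) * spin (s' b)) * P146.uEnt m a b g := by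
    funext g
    simp only [P146.Div.bform, div_eq_inv_mul]
    congr 1
    exact Finset.sum_congr rfl fun a _ => Finset.sum_congr rfl fun b _ => by ring
  rw [h]
  exact Tame.const_mul _ (Tame.sum _ fun a _ => Tame.sum _ fun b _ =>
    Tame.const_mul _ (Tame.uEnt m a b))

theorem _root_.Vale.Agent.P146.Tame.uVec (m : ℕ) (s : Fin n → Bool) (a : Fin n) :
    Tame (fun g => P146.Div.Rec.uVec m g s a) := by
  have h : (fun g : Cfg n => P146.Div.Rec.uVec m g s a) =
      fun g => ∑ b, spin (s b) * P146.uEnt m a b g := by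
    funext g
    exact Finset.sum_congr rfl fun b _ => mul_comm _ _
  rw [h]
  exact Tame.sum _ fun b _ => Tame.const_mul _ (Tame.uEnt m a b)

theorem Dab_sum {α : Type*} (S : Finset α) (p : Fin n × Fin n) {f : α → Cfg n → ℝ}
    (hf : ∀ a ∈ S, Tame (f a)) (g : Cfg n) :
    Dab p (fun g => ∑ a ∈ S, f a g) g = ∑ a ∈ S, Dab p (f a) g := by
  simp only [Dab, pd_sum S _ hf, Finset.mul_sum]

/-- The derivative of a bilinear form. -/
theorem Dab_bform (m : ℕ) (u v : Fin n → Bool) (c d : Fin n) (g : Cfg n) :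
    Dab (c, d) (fun g => bform m g u v) g = (∑ i ∈ Finset.range m,
      (uVec i g u c * uVec (m - 1 - i) g v d + uVec i g u d * uVec (m - 1 - i) g v c)) / n := by
  have h : (fun g : Cfg n => bform m g u v) =
      fun g => (n : ℝ)⁻¹ * ∑ a, ∑ b, (spin (u a) * spin (v b)) * uEnt m a b g := by
    funext g
    simp only [bform, div_eq_inv_mul]
    congr 1
    exact Finset.sum_congr rfl fun a _ => Finset.sum_congr rfl fun b _ => by ring
  have hT : ∀ a b, Tame (fun g : Cfg n => spin (u a) * spin (v b) * uEnt m a b g) :=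
    fun a b => Tame.const_mul _ (Tame.uEnt m a b)
  rw [h, Dab_const_mul _ _ (Tame.sum _ fun a _ => Tame.sum _ fun b _ => hT a b)]
  beta_reduce
  rw [Dab_sum _ _ (fun a _ => Tame.sum _ fun b _ => hT a b), div_eq_inv_mul]
  congr 1
  simp only [Dab_sum _ _ (fun b _ => hT _ b), Dab_const_mul _ _ (Tame.uEnt m _ _), Dab_uEnt,
    Finset.mul_sum, mul_add, Finset.sum_add_distrib]
  simp only [uVec, Finset.sum_mul_sum]
  congr 1 <;>
  · rw [Finset.sum_comm_cycle]
    refine Finset.sum_congr rfl fun i _ => Finset.sum_congr rfl fun a _ =>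
      Finset.sum_congr rfl fun b _ => ?_
    rw [uEnt_symm i a _]
    ring

/-- The product of two Chebyshev images. -/
theorem sum_uVec_mul (i j : ℕ) (g : Cfg n) (u v : Fin n → Bool) :
    ∑ c, uVec i g u c * uVec j g v c =
      n * ∑ l ∈ Finset.range (min i j + 1), bform (i + j - 2 * l) g u v := by
  rcases eq_or_ne n 0 with hn | hn
  · subst hn; simp
  have hn' : (n : ℝ) ≠ 0 := by exact_mod_cast hn
  simp only [uVec, Finset.sum_mul_sum, bform, ← Finset.sum_div]
  rw [mul_div_cancel₀ _ hn']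
  have e : ∀ a b, ∑ c, uEnt i c a g * spin (u a) * (uEnt j c b g * spin (v b)) =
      ∑ l ∈ Finset.range (min i j + 1),
        spin (u a) * uEnt (i + j - 2 * l) a b g * spin (v b) := by
    intro a b
    calc ∑ c, uEnt i c a g * spin (u a) * (uEnt j c b g * spin (v b))
        = spin (u a) * (∑ c, uEnt i a c g * uEnt j c b g) * spin (v b) := by
          rw [Finset.mul_sum, Finset.sum_mul]
          exact Finset.sum_congr rfl fun c _ => by rw [uEnt_symm i c a]; ring
      _ = _ := by rw [uEnt_mul, Finset.mul_sum, Finset.sum_mul]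
  rw [Finset.sum_comm]
  conv_lhs => enter [2, a]; rw [Finset.sum_comm]
  simp only [e]
  exact Finset.sum_comm_cycle

/-- All forms of degree at most `D` and all traces are bounded. -/
structure FormBd (D : ℕ) (g : Cfg n) (M τ : ℝ) : Prop where
  one_le : 1 ≤ M
  nonneg : 0 ≤ τ
  bd : ∀ m ≤ D, ∀ s s' : Fin n → Bool, |bform m g s s'| ≤ M
  tr : ∀ m, 1 ≤ m → m ≤ D → |trU m g| ≤ τ

theorem formBd_good {D K : ℕ} {g : Cfg n} (hg : Good K g) (hD : D ≤ K) :
    FormBd D g (2 * ((K : ℝ) + 1)) (1 / Real.sqrt n) where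
  one_le := by have := Nat.cast_nonneg (α := ℝ) K; linarith
  nonneg := by positivity
  bd m hm s s' := bform_good hg (hm.trans hD) s s'
  tr m h1 hm := hg.2 m h1 (by omega)

theorem formBd_crude (D : ℕ) (g : Cfg n) : FormBd D g (msize g ^ D) (msize g ^ D) where
  one_le := one_le_pow₀ (one_le_msize g)
  nonneg := pow_nonneg (zero_le_one.trans (one_le_msize g)) _
  bd m hm s s' := bform_crude g hm s s'
  tr m _ hm := (trU_crude m g).trans (pow_le_pow_right₀ (one_le_msize g) hm)

theorem abs_sum_uVec_mul_le {D i j : ℕ} (hij : i + j ≤ D) {g : Cfg n} {M τ : ℝ}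
    (h : FormBd D g M τ) (u v : Fin n → Bool) :
    |∑ c, uVec i g u c * uVec j g v c| ≤ n * (((D : ℝ) + 1) * M) := by
  rw [sum_uVec_mul, abs_mul, Nat.abs_cast]
  refine mul_le_mul_of_nonneg_left ((Finset.abs_sum_le_sum_abs _ _).trans ?_) (Nat.cast_nonneg n)
  refine (Finset.sum_le_card_nsmul _ _ M fun l _ => h.bd _ (by omega) u v).trans ?_
  rw [Finset.card_range, nsmul_eq_mul]
  refine mul_le_mul_of_nonneg_right ?_ (zero_le_one.trans h.one_le)
  exact_mod_cast (show min i j + 1 ≤ D + 1 by omega)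

/-- The contraction of a derivative with a configuration and an image vector. -/
def Q (i : ℕ) (g : Cfg n) (s s' : Fin n → Bool) (F : Fin n → Fin n → ℝ) : ℝ :=
  (∑ a, ∑ c, spin (s a) * uVec i g s' c * F a c) / (n : ℝ) ^ 2

theorem Q_add (i : ℕ) (g : Cfg n) (s s' : Fin n → Bool) (F G : Fin n → Fin n → ℝ) :
    Q i g s s' (fun a c => F a c + G a c) = Q i g s s' F + Q i g s s' G := by
  simp only [Q, mul_add, Finset.sum_add_distrib, add_div]

theorem Q_smul (i : ℕ) (g : Cfg n) (s s' : Fin n → Bool) (t : ℝ) (F : Fin n → Fin n → ℝ) :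
    Q i g s s' (fun a c => t * F a c) = t * Q i g s s' F := by
  simp only [Q, mul_left_comm _ t, ← Finset.mul_sum, mul_div_assoc]

theorem Q_sub (i : ℕ) (g : Cfg n) (s s' : Fin n → Bool) (F G : Fin n → Fin n → ℝ) :
    Q i g s s' (fun a c => F a c - G a c) = Q i g s s' F - Q i g s s' G := by
  simp only [Q, mul_sub, Finset.sum_sub_distrib, sub_div]

theorem Q_sum {α : Type*} (S : Finset α) (i : ℕ) (g : Cfg n) (s s' : Fin n → Bool)
    (F : α → Fin n → Fin n → ℝ) :
    Q i g s s' (fun a c => ∑ x ∈ S, F x a c) = ∑ x ∈ S, Q i g s s' (F x) := by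
  simp only [Q, Finset.mul_sum, ← Finset.sum_div]
  rw [Finset.sum_comm_cycle]

/-- Contraction with a rank-one matrix. -/
theorem Q_rank {D p q i : ℕ} (hq : i + q ≤ D) (hp : p ≤ D) {g : Cfg n} {M τ : ℝ}
    (h : FormBd D g M τ) (s s' u v : Fin n → Bool) :
    |Q i g s s' (fun a c => uVec p g u a * uVec q g v c)| ≤ ((D : ℝ) + 1) * M ^ 2 := by
  rcases eq_or_ne n 0 with hn | hn
  · subst hn; simp [Q]; have := h.one_le; positivity
  have hn' : (0 : ℝ) < n := by exact_mod_cast Nat.pos_of_ne_zero hn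
  have hM := zero_le_one.trans h.one_le
  have e : Q i g s s' (fun a c => uVec p g u a * uVec q g v c) =
      bform p g s u * ((∑ c, uVec i g s' c * uVec q g v c) / n) := by
    rw [Q, bform_eq_uVec, div_mul_div_comm, Finset.sum_mul_sum, ← sq]
    congr 1
    exact Finset.sum_congr rfl fun a _ => Finset.sum_congr rfl fun c _ => by ring
  rw [e, abs_mul, abs_div, Nat.abs_cast, show ((D : ℝ) + 1) * M ^ 2 = M * (((D : ℝ) + 1) * M) by ring]
  refine mul_le_mul (h.bd p hp s u) ?_ (by positivity) hM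
  rw [div_le_iff₀ hn']
  exact (abs_sum_uVec_mul_le hq h s' v).trans (le_of_eq (mul_comm _ _))

/-- Contraction with the derivative of a form. -/
theorem Q_Dab_bform {D j i : ℕ} (hij : i + j ≤ D) {g : Cfg n} {M τ : ℝ}
    (h : FormBd D g M τ) (s s' u v : Fin n → Bool) :
    |Q i g s s' (fun a c => Dab (a, c) (fun g => bform j g u v) g)| ≤
      2 * ((D : ℝ) + 1) ^ 2 * M ^ 2 / n := by
  have e : (fun a c => Dab (a, c) (fun g => bform j g u v) g) = fun a c =>
      (n : ℝ)⁻¹ * ∑ p ∈ Finset.range j,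
        (uVec p g u a * uVec (j - 1 - p) g v c + uVec (j - 1 - p) g v a * uVec p g u c) := by
    funext a c
    rw [Dab_bform, div_eq_inv_mul]
    congr 1
    exact Finset.sum_congr rfl fun p _ => by ring
  rw [e, Q_smul, Q_sum, abs_mul, abs_inv, Nat.abs_cast, inv_mul_eq_div]
  refine div_le_div_of_nonneg_right ((Finset.abs_sum_le_sum_abs _ _).trans ?_) (Nat.cast_nonneg n)
  refine (Finset.sum_le_card_nsmul _ _ (2 * (((D : ℝ) + 1) * M ^ 2)) fun p hp => ?_).trans ?_
  · rw [Finset.mem_range] at hp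
    rw [Q_add, two_mul]
    exact (abs_add_le _ _).trans (add_le_add (Q_rank (by omega) (by omega) h s s' u v)
      (Q_rank (by omega) (by omega) h s s' v u))
  · rw [Finset.card_range, nsmul_eq_mul]
    have : (j : ℝ) ≤ (D : ℝ) + 1 := by exact_mod_cast (show j ≤ D + 1 by omega)
    calc (j : ℝ) * (2 * (((D : ℝ) + 1) * M ^ 2))
        ≤ ((D : ℝ) + 1) * (2 * (((D : ℝ) + 1) * M ^ 2)) := by gcongr
      _ = _ := by ring

/-- Contraction with the bond of a configuration. -/
theorem Q_bond (i : ℕ) (g : Cfg n) (s s' u : Fin n → Bool) :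
    Q i g s s' (fun a c => bond u (a, c)) = bform 0 g s u * bform i g u s' := by
  rw [Q, bform_zero, bform_eq_uVec, div_mul_div_comm, Finset.sum_mul_sum, ← sq]
  congr 1
  exact Finset.sum_congr rfl fun a _ => Finset.sum_congr rfl fun c _ => by
    simp only [bond]; ring

end Vale.Agent.P146.Div.Rec
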