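import Vale.Agent.P146.Div.Rec.Weights

/-!
One integration by parts on a Chebyshev form at fixed cascade and fields.
-/

noncomputable section

open MeasureTheory ProbabilityTheory
open scoped BigOperators

namespace Vale.Agent.P146.Div.Rec

open Vale.Agent.P157.Parisi (Path)
open Vale.Agent.P168.Cascade (GoodTree)

variable {n : ℕ}

/-- Integration by parts under the weaker hypothesis. -/
theorem gauss_ibp1 {ι : Type*} [Fintype ι] [DecidableEq ι] {f : (ι → ℝ) → ℝ} (hf : Tame1 f)
    (e : ι) : ∫ g, g e * f g ∂gauss ι = ∫ g, pd e f g ∂gauss ι := by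
  have hmp := measurePreserving_update (ι := ι) e
  have hgf : Tame1 fun g : ι → ℝ => g e * f g := (Tame1.of_tame (Tame.coord e)).mul hf
  have hpd : Integrable (pd e f) (gauss ι) :=
    integrable_of_polyBd (contDiff_pd e hf.smooth).continuous.aestronglyMeasurable (hf.pdBd e)
  have hsplit : ∀ F : (ι → ℝ) → ℝ, Continuous F → Integrable F (gauss ι) →
      Integrable (fun z : ℝ × (ι → ℝ) => F (Function.update z.2 e z.1))
        ((gaussianReal 0 1).prod (gauss ι)) ∧
      ∫ g, F g ∂gauss ι
        = ∫ g, (∫ x, F (Function.update g e x) ∂gaussianReal 0 1) ∂gauss ι := by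
    intro F hc hi
    have hi' : Integrable (fun z : ℝ × (ι → ℝ) => F (Function.update z.2 e z.1))
        ((gaussianReal 0 1).prod (gauss ι)) :=
      hmp.integrable_comp_of_integrable hi
    refine ⟨hi', ?_⟩
    conv_lhs => rw [← hmp.map_eq]
    rw [integral_map hmp.measurable.aemeasurable
        (by rw [hmp.map_eq]; exact hc.aestronglyMeasurable), integral_prod_symm _ hi']
  obtain ⟨i1, e1⟩ := hsplit _ hgf.smooth.continuous hgf.integrable
  obtain ⟨i2, e2⟩ := hsplit _ (contDiff_pd e hf.smooth).continuous hpd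
  obtain ⟨i0, -⟩ := hsplit _ hf.smooth.continuous hf.integrable
  rw [e1, e2]
  refine integral_congr_ae ?_
  filter_upwards [i1.prod_left_ae, i2.prod_left_ae, i0.prod_left_ae] with g h1 h2 h0
  simp only [Function.update_self] at h1 ⊢
  refine gauss_ibp_one (φ := fun x => f (Function.update g e x)) (fun x => ?_) h0 h2 h1
  exact ((differentiable_of_smooth hf.smooth _).hasFDerivAt).comp_hasDerivAt x
    (hasDerivAt_update g e x)

theorem Tame1.DabBd {f : Cfg n → ℝ} (hf : Tame1 f) (p : Fin n × Fin n) :
    ContDiff ℝ (⊤ : ℕ∞) (Dab p f) ∧ PolyBd (Dab p f) :=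
  ⟨contDiff_const.mul (contDiff_pd _ hf.smooth), (PolyBd.const _).mul (hf.pdBd _)⟩

theorem mean_mat_mul {f : Cfg n → ℝ} (hf : Tame1 f) (a c : Fin n) :
    mean (fun g => mat g a c * f g) = mean (Dab (a, c) f) / n := by
  have hn : (0 : ℝ) < n := Nat.cast_pos.2 a.pos
  have e1 : (fun g : Cfg n => mat g a c * f g) =
      fun g => dfac a c / Real.sqrt n * (g s(a, c) * f g) := by
    funext g; simp only [mat, Matrix.of_apply]; ring
  have e2 : Dab (a, c) f = fun g => dfac a c * Real.sqrt n * pd s(a, c) f g := rfl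
  rw [e1, e2, mean, mean, integral_const_mul, integral_const_mul, gauss_ibp1 hf]
  have hs := Real.sq_sqrt hn.le
  field_simp
  rw [hs]
  ring

theorem Dab_mul1 {f h : Cfg n → ℝ} (p : Fin n × Fin n) (hf : Tame1 f) (hh : Tame1 h) :
    Dab p (fun g => f g * h g) = fun g => Dab p f g * h g + f g * Dab p h g := by
  funext g; simp [Dab, pd_mul_smooth _ hf.smooth hh.smooth]; ring

/-- The contraction of the derivative of `f`. -/
def Qf (i : ℕ) (f : Cfg n → ℝ) (g : Cfg n) (s s' : Fin n → Bool) : ℝ :=
  Q i g s s' fun a c => Dab (a, c) f g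

/-- The term from the derivative of the image vector. -/
def T1 (i : ℕ) (g : Cfg n) (s s' : Fin n → Bool) : ℝ :=
  (∑ a, ∑ c, spin (s a) * Dab (a, c) (fun g => uVec i g s' c) g) / (n : ℝ) ^ 2

/-- The previous form, absent at degree zero. -/
def prev (i : ℕ) (g : Cfg n) (s s' : Fin n → Bool) : ℝ :=
  if i = 0 then 0 else bform (i - 1) g s s'

theorem uVec_step (i : ℕ) (g : Cfg n) (s : Fin n → Bool) (a : Fin n) :
    ∑ c, mat g a c * uVec i g s c =
      uVec (i + 1) g s a + if i = 0 then 0 else uVec (i - 1) g s a := by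
  have e : ∑ c, mat g a c * uVec i g s c =
      ∑ b, (∑ c, mat g a c * uEnt i c b g) * spin (s b) := by
    simp only [uVec, Finset.mul_sum, Finset.sum_mul, mul_assoc]
    exact Finset.sum_comm
  rw [e]
  cases i with
  | zero => simp [mat_mul_uEnt_zero, uVec]
  | succ i =>
    simp only [mat_mul_uEnt, add_mul, Finset.sum_add_distrib, uVec, Nat.succ_ne_zero, if_false,
      Nat.add_sub_cancel]

theorem sum_mat_uVec (hn : n ≠ 0) (i : ℕ) (g : Cfg n) (s s' : Fin n → Bool) :
    ∑ a, ∑ c, spin (s a) * (mat g a c * uVec i g s' c) =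
      n * (bform (i + 1) g s s' + prev i g s s') := by
  have hn' : (n : ℝ) ≠ 0 := by exact_mod_cast hn
  simp only [← Finset.mul_sum, uVec_step, mul_add, Finset.sum_add_distrib, bform_eq_uVec,
    mul_div_cancel₀ _ hn', prev]
  congr 1
  split_ifs <;> simp [mul_div_cancel₀ _ hn']

theorem Tame_prev (i : ℕ) (s s' : Fin n → Bool) : Tame (fun g => prev i g s s') := by
  unfold prev
  split_ifs
  · exact Tame.const 0
  · exact Tame.bform _ s s'

/-- One step of integration by parts. -/
theorem ibp_form (hn : n ≠ 0) (i : ℕ) (s s' : Fin n → Bool) {H : Cfg n → ℝ} (hH : Tame1 H) :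
    Integrable (fun g => (T1 i g s s' - prev i g s s') * H g + Qf i H g s s') (gauss (Edge n)) ∧
    mean (fun g => bform (i + 1) g s s' * H g) =
      mean (fun g => (T1 i g s s' - prev i g s s') * H g + Qf i H g s s') := by
  have hn' : (n : ℝ) ≠ 0 := by exact_mod_cast hn
  have hw : ∀ c, Tame1 (fun g : Cfg n => uVec i g s' c) :=
    fun c => Tame1.of_tame (Tame.uVec i s' c)
  have hf : ∀ c, Tame1 (fun g => uVec i g s' c * H g) := fun c => (hw c).mul hH
  have hmf : ∀ a c, Integrable (fun g : Cfg n => spin (s a) * (mat g a c * (uVec i g s' c * H g)))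
      (gauss (Edge n)) := fun a c =>
    (((Tame1.of_tame (Tame.matEntry a c)).mul (hf c)).integrable).const_mul _
  have hD : ∀ a c, Integrable (fun g => spin (s a) * Dab (a, c) (fun g => uVec i g s' c * H g) g)
      (gauss (Edge n)) := fun a c =>
    (integrable_of_polyBd ((hf c).DabBd (a, c)).1.continuous.aestronglyMeasurable
      ((hf c).DabBd (a, c)).2).const_mul _
  have hB : Integrable (fun g => bform (i + 1) g s s' * H g) (gauss (Edge n)) :=
    ((Tame1.of_tame (Tame.bform _ s s')).mul hH).integrable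
  have hP : Integrable (fun g => prev i g s s' * H g) (gauss (Edge n)) :=
    ((Tame1.of_tame (Tame_prev i s s')).mul hH).integrable
  have lhs : mean (fun g : Cfg n => ∑ a, ∑ c, spin (s a) * (mat g a c * (uVec i g s' c * H g))) =
      n * (mean (fun g => bform (i + 1) g s s' * H g) + mean (fun g => prev i g s s' * H g)) := by
    have e : (fun g : Cfg n => ∑ a, ∑ c, spin (s a) * (mat g a c * (uVec i g s' c * H g))) =
        fun g => n * (bform (i + 1) g s s' * H g + prev i g s s' * H g) := by
      funext g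
      rw [← add_mul, ← mul_assoc, ← sum_mat_uVec hn, Finset.sum_mul]
      refine Finset.sum_congr rfl fun a _ => ?_
      rw [Finset.sum_mul]
      exact Finset.sum_congr rfl fun c _ => by ring
    simp only [mean] at *
    rw [e, integral_const_mul, integral_add hB hP]
  have rhs : mean (fun g : Cfg n => ∑ a, ∑ c, spin (s a) * (mat g a c * (uVec i g s' c * H g))) =
      mean (fun g => (n : ℝ) * (T1 i g s s' * H g + Qf i H g s s')) := by
    have e : (fun g => (n : ℝ) * (T1 i g s s' * H g + Qf i H g s s')) = fun g =>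
        (n : ℝ)⁻¹ * ∑ a, ∑ c, spin (s a) * Dab (a, c) (fun g => uVec i g s' c * H g) g := by
      funext g
      simp only [Dab_mul1 _ (hw _) hH, mul_add, Finset.sum_add_distrib, T1, Qf, Q]
      congr 1
      · field_simp
        simp only [Finset.sum_mul]
        exact Finset.sum_congr rfl fun a _ => Finset.sum_congr rfl fun c _ => by ring
      · field_simp
    rw [e]
    simp only [mean]
    rw [integral_const_mul, integral_finsetSum _ fun a _ => integrable_finsetSum _ fun c _ => hmf a c,
      integral_finsetSum _ fun a _ => integrable_finsetSum _ fun c _ => hD a c, Finset.mul_sum]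
    refine Finset.sum_congr rfl fun a _ => ?_
    rw [integral_finsetSum _ fun c _ => hmf a c, integral_finsetSum _ fun c _ => hD a c,
      Finset.mul_sum]
    refine Finset.sum_congr rfl fun c _ => ?_
    rw [integral_const_mul, integral_const_mul]
    have := mean_mat_mul (hf c) a c
    simp only [mean] at this
    rw [this]
    ring
  have hR : Integrable (fun g => T1 i g s s' * H g + Qf i H g s s') (gauss (Edge n)) := by
    have e : (fun g => T1 i g s s' * H g + Qf i H g s s') = fun g =>
        (∑ a, ∑ c, spin (s a) * Dab (a, c) (fun g => uVec i g s' c * H g) g) / (n : ℝ) ^ 2 := by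
      funext g
      simp only [Dab_mul1 _ (hw _) hH, mul_add, Finset.sum_add_distrib, T1, Qf, Q, add_div]
      congr 1
      · rw [div_mul_eq_mul_div, Finset.sum_mul]
        congr 1
        refine Finset.sum_congr rfl fun a _ => ?_
        rw [Finset.sum_mul]
        exact Finset.sum_congr rfl fun c _ => by ring
      · congr 1
        exact Finset.sum_congr rfl fun a _ => Finset.sum_congr rfl fun c _ => by ring
    rw [e]
    exact (integrable_finsetSum _ fun a _ => integrable_finsetSum _ fun c _ => hD a c).div_const _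
  have key := lhs.symm.trans rhs
  have e2 : (fun g => (T1 i g s s' - prev i g s s') * H g + Qf i H g s s') =
      fun g => (T1 i g s s' * H g + Qf i H g s s') - prev i g s s' * H g := by
    funext g; ring
  refine ⟨e2 ▸ hR.sub hP, ?_⟩
  simp only [mean] at key ⊢
  rw [e2, integral_sub hR hP]
  rw [integral_const_mul] at key
  have := mul_left_cancel₀ hn' key
  linarith

theorem T1_prev_le {D i : ℕ} (hi : i ≤ D) {g : Cfg n} {M τ : ℝ} (h : FormBd D g M τ)
    (s s' : Fin n → Bool) :
    |T1 i g s s' - prev i g s s'| ≤ ((D : ℝ) + 1) ^ 2 * M * (1 / n + τ) := by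
  rcases eq_or_ne n 0 with hn | hn
  · subst hn
    have := h.one_le
    have := h.nonneg
    simp [T1, prev, bform]
    positivity
  have hn' : (n : ℝ) ≠ 0 := by exact_mod_cast hn
  have hM := zero_le_one.trans h.one_le
  have hDu : ∀ a c, Dab (a, c) (fun g => uVec i g s' c) g =
      ∑ p ∈ Finset.range i, (uEnt p c a g * uVec (i - 1 - p) g s' c +
        uEnt p c c g * uVec (i - 1 - p) g s' a) := by
    intro a c
    have e : (fun g : Cfg n => uVec i g s' c) = fun g => ∑ b, spin (s' b) * uEnt i c b g := by
      funext g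
      exact Finset.sum_congr rfl fun b _ => mul_comm _ _
    rw [e, Dab_sum _ _ fun b _ => Tame.const_mul _ (Tame.uEnt i c b)]
    simp only [Dab_const_mul _ _ (Tame.uEnt i c _), Dab_uEnt, uVec, Finset.mul_sum, mul_add,
      Finset.sum_add_distrib]
    congr 1 <;>
    · rw [Finset.sum_comm]
      exact Finset.sum_congr rfl fun p _ => Finset.sum_congr rfl fun b _ => by ring
  have hT : T1 i g s s' = ∑ p ∈ Finset.range i,
      ((∑ c, uVec p g s c * uVec (i - 1 - p) g s' c) / (n : ℝ) ^ 2 +
        trU p g * bform (i - 1 - p) g s s') := by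
    simp only [T1, hDu, Finset.mul_sum, mul_add, Finset.sum_add_distrib, add_div, trU, bform_eq_uVec]
    congr 1
    · rw [← Finset.sum_div]
      congr 1
      rw [Finset.sum_comm_cycle]
      refine Finset.sum_congr rfl fun p _ => ?_
      rw [Finset.sum_comm]
      refine Finset.sum_congr rfl fun c _ => ?_
      simp only [uVec, Finset.sum_mul]
      exact Finset.sum_congr rfl fun a _ => by ring
    · rw [Finset.sum_comm_cycle, Finset.sum_div]
      refine Finset.sum_congr rfl fun p _ => ?_
      rw [div_mul_div_comm, ← sq, Finset.sum_mul_sum, Finset.sum_comm]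
      congr 1
      exact Finset.sum_congr rfl fun a _ => Finset.sum_congr rfl fun c _ => by ring
  have hA : ∀ p ∈ Finset.range i,
      |(∑ c, uVec p g s c * uVec (i - 1 - p) g s' c) / (n : ℝ) ^ 2| ≤
        ((D : ℝ) + 1) * M / n := by
    intro p hp
    rw [Finset.mem_range] at hp
    rw [abs_div, abs_of_nonneg (sq_nonneg (n : ℝ))]
    refine (div_le_div_of_nonneg_right (abs_sum_uVec_mul_le (D := D) (by omega) h s s')
      (sq_nonneg _)).trans (le_of_eq ?_)
    field_simp
  cases i with
  | zero =>
    rw [hT]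
    simp only [prev, Finset.range_zero, Finset.sum_empty, if_true, sub_zero, abs_zero]
    have := h.nonneg
    positivity
  | succ i =>
    have e : T1 (i + 1) g s s' - prev (i + 1) g s s' =
        ∑ p ∈ Finset.range (i + 1), (∑ c, uVec p g s c * uVec (i + 1 - 1 - p) g s' c) / (n : ℝ) ^ 2 +
          ∑ p ∈ Finset.range i, trU (p + 1) g * bform (i + 1 - 1 - (p + 1)) g s s' := by
      rw [hT, Finset.sum_add_distrib]
      conv_lhs => rw [Finset.sum_range_succ' (fun p => trU p g * bform (i + 1 - 1 - p) g s s') i]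
      simp [prev, trU_zero hn]
      ring
    rw [e]
    refine (abs_add_le _ _).trans ((add_le_add ((Finset.abs_sum_le_sum_abs _ _).trans
      (Finset.sum_le_card_nsmul _ _ _ hA)) ((Finset.abs_sum_le_sum_abs _ _).trans
      (Finset.sum_le_card_nsmul _ _ (τ * M) fun p hp => ?_))).trans ?_)
    · rw [Finset.mem_range] at hp
      rw [abs_mul]
      exact mul_le_mul (h.tr _ (by omega) (by omega)) (h.bd _ (by omega) s s') (abs_nonneg _)
        h.nonneg
    · have h1 : ((i + 1 : ℕ) : ℝ) ≤ (D : ℝ) + 1 := by exact_mod_cast (by omega : i + 1 ≤ D + 1)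
      have h2 : ((i : ℕ) : ℝ) ≤ ((D : ℝ) + 1) ^ 2 := by
        have : (i : ℝ) ≤ (D : ℝ) + 1 := by exact_mod_cast (by omega : i ≤ D + 1)
        nlinarith [Nat.cast_nonneg (α := ℝ) D]
      simp only [Finset.card_range, nsmul_eq_mul]
      calc ((i + 1 : ℕ) : ℝ) * (((D : ℝ) + 1) * M / n) + (i : ℝ) * (τ * M)
          ≤ ((D : ℝ) + 1) * (((D : ℝ) + 1) * M / n) + ((D : ℝ) + 1) ^ 2 * (τ * M) := by
            have := h.nonneg
            gcongr
        _ = _ := by ring

end Vale.Agent.P146.Div.Rec
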