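import Vale.Agent.P146.Div.Rec.Ibp
import Vale.Agent.P168.Cascade.Basic

/-!
Products of forms, the states they are integrated in, and the measurability that goes with them.
-/

noncomputable section

open MeasureTheory ProbabilityTheory
open scoped BigOperators

namespace Vale.Agent.P146.Div.Rec

open Vale.Agent.P157.Parisi (Path)
open Vale.Agent.P168.Cascade (GoodTree)

variable {n k : ℕ}

/-- A product of forms of `k` configurations. -/
def prodF (L : List (ℕ × Fin k × Fin k)) (g : Cfg n) (s : Fin k → Fin n → Bool) : ℝ :=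
  (L.map fun f => bform f.1 g (s f.2.1) (s f.2.2)).prod

/-- The same factors among one more configuration. -/
def up (L : List (ℕ × Fin k × Fin k)) : List (ℕ × Fin (k + 1) × Fin (k + 1)) :=
  L.map fun f => (f.1, f.2.1.castSucc, f.2.2.castSucc)

theorem prodF_cons (f : ℕ × Fin k × Fin k) (L : List (ℕ × Fin k × Fin k)) (g : Cfg n)
    (s : Fin k → Fin n → Bool) :
    prodF (f :: L) g s = bform f.1 g (s f.2.1) (s f.2.2) * prodF L g s := by
  simp [prodF]

theorem prodF_nil (g : Cfg n) (s : Fin k → Fin n → Bool) : prodF [] g s = 1 := rfl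

theorem prodF_up (L : List (ℕ × Fin k × Fin k)) (g : Cfg n) (s : Fin (k + 1) → Fin n → Bool) :
    prodF (up L) g s = prodF L g fun a => s a.castSucc := by
  simp only [prodF, up, List.map_map]
  rfl

theorem tame_prodF : ∀ (L : List (ℕ × Fin k × Fin k)) (s : Fin k → Fin n → Bool),
    Tame fun g => prodF L g s
  | [], _ => Tame.const 1
  | f :: L, s => by
    simp only [prodF_cons]
    exact (Tame.bform _ _ _).mul (tame_prodF L s)

theorem abs_prodF_le {D : ℕ} {g : Cfg n} {M τ : ℝ} (h : FormBd D g M τ) :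
    ∀ L : List (ℕ × Fin k × Fin k), (∀ f ∈ L, f.1 ≤ D) → ∀ s : Fin k → Fin n → Bool,
      |prodF L g s| ≤ M ^ L.length
  | [], _, s => by simp [prodF_nil]
  | f :: L, hD, s => by
    rw [prodF_cons, abs_mul, List.length_cons, pow_succ']
    exact mul_le_mul (h.bd _ (hD f List.mem_cons_self) _ _)
      (abs_prodF_le h L (fun f hf => hD f (List.mem_cons_of_mem _ hf)) s) (abs_nonneg _)
      (zero_le_one.trans h.one_le)

/-- Contraction with the derivative of a product. -/
theorem Q_Dab_prodF {D i : ℕ} {g : Cfg n} {M τ : ℝ} (h : FormBd D g M τ) (s s' : Fin n → Bool) :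
    ∀ L : List (ℕ × Fin k × Fin k), (∀ f ∈ L, i + f.1 ≤ D) → ∀ u : Fin k → Fin n → Bool,
      |Q i g s s' (fun a c => Dab (a, c) (fun g => prodF L g u) g)| ≤
        L.length * (2 * ((D : ℝ) + 1) ^ 2 * M ^ (L.length + 1) / n)
  | [], _, u => by simp [prodF_nil, Dab_const, Q]
  | f :: L, hD, u => by
    have hM := zero_le_one.trans h.one_le
    have hD' : ∀ f ∈ L, i + f.1 ≤ D := fun f hf => hD f (List.mem_cons_of_mem _ hf)
    have e : (fun a c => Dab (a, c) (fun g => prodF (f :: L) g u) g) = fun a c =>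
        prodF L g u * Dab (a, c) (fun g => bform f.1 g (u f.2.1) (u f.2.2)) g +
          bform f.1 g (u f.2.1) (u f.2.2) * Dab (a, c) (fun g => prodF L g u) g := by
      funext a c
      simp only [prodF_cons]
      rw [Dab_mul _ (Tame.bform _ _ _) (tame_prodF L u)]
      ring
    rw [e, Q_add, Q_smul, Q_smul]
    have hf := hD f List.mem_cons_self
    refine (abs_add_le _ _).trans ?_
    rw [abs_mul, abs_mul]
    refine (add_le_add
      (mul_le_mul (abs_prodF_le h L (fun f hf => le_add_self.trans (hD' f hf)) u)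
        (Q_Dab_bform hf h s s' _ _) (abs_nonneg _) (pow_nonneg hM _))
      (mul_le_mul (h.bd f.1 (le_add_self.trans hf) _ _) (Q_Dab_prodF h s s' L hD' u)
        (abs_nonneg _) hM)).trans (le_of_eq ?_)
    rw [List.length_cons, Nat.cast_succ, pow_succ M (L.length + 1), pow_succ M L.length]
    ring

variable {ξ : Path} {nn : Fin ξ.r → ℕ} {β : ℝ} {m : ℕ} {t θ : ℝ}

theorem continuous_W (hn : ∀ i, 0 < nn i) {z : Z ξ n nn} (hz : GoodTree ξ.r nn z.1)
    (x : Fin k → X ξ n nn) : Continuous fun g => W β m t θ z g x :=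
  (tame1_W hn hz x).smooth.continuous

theorem tame1_avg_prodF (hn : ∀ i, 0 < nn i) {z : Z ξ n nn} (hz : GoodTree ξ.r nn z.1)
    (L : List (ℕ × Fin k × Fin k)) :
    Tame1 fun g => avg β m t θ z g (fun x : Fin k → X ξ n nn => prodF L g fun a => (x a).1) :=
  Tame1.sum _ fun x _ => (tame1_W hn hz x).mul (Tame1.of_tame (tame_prodF L _))

theorem measurable_fieldE (s : Fin n → Bool) (l : Vale.Agent.P168.Cascade.Leaf ξ.r nn) :
    Measurable fun γ : FieldVar ξ.r n nn => fieldE ξ nn γ s l := by
  unfold fieldE Vale.Agent.P157.dot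
  fun_prop

theorem measurable_pW (y : X ξ n nn) :
    Measurable fun p : Cfg n × Z ξ n nn => pW β m t θ p.2 p.1 y := by
  have hJ : ∀ u : X ξ n nn, Measurable fun p : Cfg n × Z ξ n nn =>
      joint ξ nn (interpH β m t θ p.1) (β * Real.cos θ) p.2 u := fun u => by
    unfold joint
    exact ((Vale.Agent.P168.Cascade.measurable_leafW _ _ _ _).comp
      (measurable_fst.comp measurable_snd)).mul (Real.measurable_exp.comp
        (((Tame_interpH β m t θ u.1).continuous.measurable.comp measurable_fst).add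
          (((measurable_fieldE u.1 u.2).comp (measurable_snd.comp measurable_snd)).const_mul _)))
  exact (hJ y).div (Finset.measurable_sum _ fun u _ => hJ u)

/-- An average is bounded by any bound on its argument, and the mean over the disorder and the
integral over the cascade commute. -/
theorem state_eq {Φ : Cfg n → (Fin k → X ξ n nn) → ℝ} (hΦ : ∀ x, Measurable fun g => Φ g x)
    {B : Cfg n → ℝ} (hB0 : ∀ g, 0 ≤ B g) (hBi : Integrable B (gauss (Edge n)))
    (hb : ∀ g x, |Φ g x| ≤ B g) :
    stateMean ξ nn β m t θ Φ = ∫ z, mean (fun g => avg β m t θ z g (Φ g)) ∂augLaw ξ n nn ∧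
      Integrable (fun z => mean (fun g => avg β m t θ z g (Φ g))) (augLaw ξ n nn) := by
  have hi : Integrable (fun p : Cfg n × Z ξ n nn => avg β m t θ p.2 p.1 (Φ p.1))
      ((gauss (Edge n)).prod (augLaw ξ n nn)) := by
    have hm : Measurable fun p : Cfg n × Z ξ n nn => avg β m t θ p.2 p.1 (Φ p.1) :=
      Finset.measurable_sum _ fun x _ => (Finset.measurable_prod _ fun a _ =>
        measurable_pW (x a)).mul ((hΦ x).comp measurable_fst)
    refine (hBi.comp_fst (augLaw ξ n nn)).mono' hm.aestronglyMeasurable ?_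
    filter_upwards [(Measure.quasiMeasurePreserving_snd (μ := gauss (Edge n))
      (ν := augLaw ξ n nn)).ae ae_good] with p hp
    exact abs_avg_le hp _ (hB0 _) (hb _)
  exact ⟨integral_integral_swap hi, hi.integral_prod_right⟩

/-- The average over `k` replicas and one more. -/
theorem avg_succ (z : Z ξ n nn) (g : Cfg n) (Φ : (Fin (k + 1) → X ξ n nn) → ℝ) :
    avg β m t θ z g Φ =
      ∑ x : Fin k → X ξ n nn, W β m t θ z g x *
        ∑ u, pW β m t θ z g u * Φ (Fin.snoc x u) := by
  rw [avg, ← (Fin.snocEquiv fun _ => X ξ n nn).sum_comp, Fintype.sum_prod_type, Finset.sum_comm]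
  refine Finset.sum_congr rfl fun x _ => ?_
  rw [Finset.mul_sum]
  refine Finset.sum_congr rfl fun u _ => ?_
  simp [W, Fin.snocEquiv, Fin.prod_univ_castSucc, mul_assoc]

end Vale.Agent.P146.Div.Rec
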