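import Vale.Agent.P146.Div.Rec.Products

/-!
One step of the recursion: lowering the degree of the first form of a product.
-/

noncomputable section

open MeasureTheory ProbabilityTheory Filter
open scoped BigOperators Topology

namespace Vale.Agent.P146.Div.Rec

open Vale.Agent.P157.Parisi (Path)
open Vale.Agent.P168.Cascade (GoodTree)

variable {n k : ℕ} {ξ : Path} {nn : Fin ξ.r → ℕ} {β : ℝ} {m : ℕ} {t θ : ℝ}

/-- The rank-`m` part of the derivative of a log-weight. -/
def tiltT (m : ℕ) (g : Cfg n) (s : Fin n → Bool) (a c : Fin n) : ℝ :=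
  ∑ p ∈ Finset.range m, uVec p g s a * uVec (m - 1 - p) g s c

theorem Q_tiltT_le {D i : ℕ} (hD : i + m ≤ D) {g : Cfg n} {M τ : ℝ} (h : FormBd D g M τ)
    (s s' u : Fin n → Bool) :
    |Q i g s s' (tiltT m g u)| ≤ m * (((D : ℝ) + 1) * M ^ 2) := by
  unfold tiltT
  rw [Q_sum]
  refine (Finset.abs_sum_le_sum_abs _ _).trans ((Finset.sum_le_card_nsmul _ _
    (((D : ℝ) + 1) * M ^ 2) fun p hp => ?_).trans_eq ?_)
  · rw [Finset.mem_range] at hp
    exact Q_rank (by omega) (by omega) h s s' u u
  · rw [Finset.card_range, nsmul_eq_mul]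

theorem Dab_W (hn : ∀ i, 0 < nn i) {z : Z ξ n nn} (hz : GoodTree ξ.r nn z.1)
    (x : Fin k → X ξ n nn) (a c : Fin n) (g : Cfg n) :
    Dab (a, c) (fun g => W β m t θ z g x) g = W β m t θ z g x *
      ∑ l, ((β * Real.sin θ * bond (x l).1 (a, c) + t * β * tiltT m g (x l).1 a c) -
        ∑ u, pW β m t θ z g u *
          (β * Real.sin θ * bond u.1 (a, c) + t * β * tiltT m g u.1 a c)) := by
  have h : Dab (a, c) (fun g => W β m t θ z g x) g = W β m t θ z g x *
      ∑ l, (Dab (a, c) (fun g => interpH β m t θ g (x l).1) g -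
        ∑ u, pW β m t θ z g u * Dab (a, c) (fun g => interpH β m t θ g u.1) g) := by
    simp only [Dab]
    rw [pd_W hn hz x]
    simp only [Finset.mul_sum, mul_sub]
    refine Finset.sum_congr rfl fun l _ => ?_
    congr 1
    · ring
    · exact Finset.sum_congr rfl fun u _ => by ring
  rw [h]
  congr 1
  refine Finset.sum_congr rfl fun l _ => ?_
  set δ : ℝ := if a = c then 1 else 0 with hδ
  have hs : ∑ u, pW β m t θ z g u * (β * Real.sin θ * δ) = β * Real.sin θ * δ := by
    rw [← Finset.sum_mul, sum_pW hn hz, one_mul]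
  simp only [Dab_interpH, ← hδ, tiltT, mul_sub, mul_add, sub_add_eq_add_sub,
    Finset.sum_sub_distrib, Finset.sum_add_distrib]
  rw [hs]
  ring

/-- The part of the derivative of the weight that the recursion keeps, and the rest. -/
theorem Q_Dab_W (hn : ∀ i, 0 < nn i) {z : Z ξ n nn} (hz : GoodTree ξ.r nn z.1)
    (x : Fin k → X ξ n nn) (i : ℕ) (s s' : Fin n → Bool) (g : Cfg n) :
    Qf i (fun g => W β m t θ z g x) g s s' = W β m t θ z g x *
      (β * Real.sin θ * ((∑ l, bform 0 g s (x l).1 * bform i g (x l).1 s') -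
          (k : ℝ) * ∑ u, pW β m t θ z g u * (bform 0 g s u.1 * bform i g u.1 s')) +
        t * β * ∑ l, (Q i g s s' (tiltT m g (x l).1) -
          ∑ u, pW β m t θ z g u * Q i g s s' (tiltT m g u.1))) := by
  simp only [Qf, Dab_W hn hz, Q_smul]
  congr 1
  simp only [Q_sum, Q_sub, Q_smul, Q_add, Q_bond]
  have e : (k : ℝ) * (∑ u, pW β m t θ z g u * (bform 0 g s u.1 * bform i g u.1 s')) =
      ∑ _l : Fin k, ∑ u, pW β m t θ z g u * (bform 0 g s u.1 * bform i g u.1 s') := by
    simp
  rw [e, ← Finset.sum_sub_distrib, Finset.mul_sum, Finset.mul_sum, ← Finset.sum_add_distrib]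
  refine Finset.sum_congr rfl fun l _ => ?_
  simp only [mul_add, Finset.sum_add_distrib, mul_sub, Finset.mul_sum]
  rw [Finset.sum_congr rfl fun u _ => mul_left_comm (pW β m t θ z g u) (β * Real.sin θ) _,
    Finset.sum_congr rfl fun u _ => mul_left_comm (pW β m t θ z g u) (t * β) _]
  ring

/-- The remainder of one step at fixed cascade, fields and disorder. -/
def stepErr (β : ℝ) (m : ℕ) (t θ : ℝ) (z : Z ξ n nn) (i : ℕ) (a b : Fin k)
    (L : List (ℕ × Fin k × Fin k)) (g : Cfg n) : ℝ :=
  avg β m t θ z g fun x : Fin k → X ξ n nn =>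
    (T1 i g (x a).1 (x b).1 - prev i g (x a).1 (x b).1) * prodF L g (fun a => (x a).1) +
      Qf i (fun g => prodF L g fun a => (x a).1) g (x a).1 (x b).1 +
      t * β * (prodF L g (fun a => (x a).1) * ∑ l, (Q i g (x a).1 (x b).1 (tiltT m g (x l).1) -
        ∑ u, pW β m t θ z g u * Q i g (x a).1 (x b).1 (tiltT m g u.1)))

/-- The main part of one step at fixed cascade, fields and disorder. -/
def stepMain (β : ℝ) (m : ℕ) (t θ : ℝ) (z : Z ξ n nn) (i : ℕ) (a b : Fin k)
    (L : List (ℕ × Fin k × Fin k)) (g : Cfg n) : ℝ :=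
  β * Real.sin θ * ((∑ l, avg β m t θ z g fun x : Fin k → X ξ n nn =>
      prodF ((0, a, l) :: (i, l, b) :: L) g fun a => (x a).1) -
    (k : ℝ) * avg β m t θ z g fun x : Fin (k + 1) → X ξ n nn =>
      prodF ((0, a.castSucc, Fin.last k) :: (i, Fin.last k, b.castSucc) :: up L) g
        fun a => (x a).1)

theorem ibp_split (hn : ∀ i, 0 < nn i) {z : Z ξ n nn} (hz : GoodTree ξ.r nn z.1) (i : ℕ)
    (a b : Fin k) (L : List (ℕ × Fin k × Fin k)) (g : Cfg n) :
    ∑ x : Fin k → X ξ n nn, ((T1 i g (x a).1 (x b).1 - prev i g (x a).1 (x b).1) *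
        (W β m t θ z g x * prodF L g fun a => (x a).1) +
      Qf i (fun g => W β m t θ z g x * prodF L g fun a => (x a).1) g (x a).1 (x b).1) =
    stepErr β m t θ z i a b L g + stepMain β m t θ z i a b L g := by
  have e1 : ∑ l, avg β m t θ z g (fun x : Fin k → X ξ n nn =>
      prodF ((0, a, l) :: (i, l, b) :: L) g fun a => (x a).1) =
      ∑ x : Fin k → X ξ n nn, W β m t θ z g x * (prodF L g (fun a => (x a).1) *
        ∑ l, bform 0 g (x a).1 (x l).1 * bform i g (x l).1 (x b).1) := by
    simp only [avg, prodF_cons]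
    rw [Finset.sum_comm]
    refine Finset.sum_congr rfl fun x _ => ?_
    simp only [Finset.mul_sum]
    exact Finset.sum_congr rfl fun l _ => by ring
  have e2 : avg β m t θ z g (fun x : Fin (k + 1) → X ξ n nn =>
      prodF ((0, a.castSucc, Fin.last k) :: (i, Fin.last k, b.castSucc) :: up L) g
        fun a => (x a).1) =
      ∑ x : Fin k → X ξ n nn, W β m t θ z g x * (prodF L g (fun a => (x a).1) *
        ∑ u, pW β m t θ z g u * (bform 0 g (x a).1 u.1 * bform i g u.1 (x b).1)) := by
    rw [avg_succ]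
    refine Finset.sum_congr rfl fun x _ => congrArg _ ?_
    rw [Finset.mul_sum]
    refine Finset.sum_congr rfl fun u _ => ?_
    simp only [prodF_cons, prodF_up, Fin.snoc_castSucc, Fin.snoc_last]
    ring
  rw [stepErr, stepMain, e1, e2]
  simp only [avg, mul_sub, Finset.mul_sum, ← Finset.sum_sub_distrib, ← Finset.sum_add_distrib]
  refine Finset.sum_congr rfl fun x _ => ?_
  have hd : Qf i (fun g => W β m t θ z g x * prodF L g fun a => (x a).1) g (x a).1 (x b).1 =
      prodF L g (fun a => (x a).1) * Qf i (fun g => W β m t θ z g x) g (x a).1 (x b).1 +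
        W β m t θ z g x *
          Qf i (fun g => prodF L g fun a => (x a).1) g (x a).1 (x b).1 := by
    simp only [Qf, Dab_mul1 _ (tame1_W hn hz x) (Tame1.of_tame (tame_prodF L _))]
    rw [Q_add, ← Q_smul, ← Q_smul]
    congr 2
    funext a c
    ring
  rw [hd, Q_Dab_W hn hz]
  simp only [← Finset.mul_sum, Finset.sum_sub_distrib]
  ring

/-- The constant of one step. -/
def stepConst (β : ℝ) (k m D len : ℕ) : ℝ :=
  (1 + 2 * (len : ℝ) + 2 * |β| * k * m) * ((D : ℝ) + 1) ^ 2

theorem abs_stepErr_le {D i : ℕ} {g : Cfg n} {M τ : ℝ} (h : FormBd D g M τ)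
    (hn : ∀ i, 0 < nn i) {z : Z ξ n nn} (hz : GoodTree ξ.r nn z.1) (a b : Fin k)
    (L : List (ℕ × Fin k × Fin k)) (hL : ∀ f ∈ L, i + f.1 ≤ D) (hm : i + m ≤ D) :
    |stepErr β m t θ z i a b L g| ≤
      stepConst β k m D L.length * M ^ (L.length + 2) * (1 / (n : ℝ) + τ + |t|) := by
  have hM := zero_le_one.trans h.one_le
  have hτ := h.nonneg
  set N : ℝ := M ^ (L.length + 2) with hN
  set e : ℝ := (1 / (n : ℝ) + τ + |t|) with he
  have hN0 : 0 ≤ N := pow_nonneg hM _
  have he1 : 1 / (n : ℝ) + τ ≤ e := le_add_of_nonneg_right (abs_nonneg t)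
  have he2 : 1 / (n : ℝ) ≤ e := (le_add_of_nonneg_right hτ).trans he1
  have he3 : |t| ≤ e := le_add_of_nonneg_left (by positivity)
  have he0 : 0 ≤ e := (abs_nonneg t).trans he3
  refine abs_avg_le hz g (by unfold stepConst; positivity) fun x => ?_
  set R : ℝ := prodF L g fun a => (x a).1
  have hR : |R| ≤ M ^ L.length :=
    abs_prodF_le h L (fun f hf => le_add_self.trans (hL f hf)) _
  have hpM : M ^ L.length * M ≤ N := by
    rw [hN, ← pow_succ]; exact pow_le_pow_right₀ h.one_le (by omega)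
  refine (abs_add_le _ _).trans ((add_le_add (abs_add_le _ _) le_rfl).trans ?_)
  have b1 : |(T1 i g (x a).1 (x b).1 - prev i g (x a).1 (x b).1) * R| ≤
      ((D : ℝ) + 1) ^ 2 * N * e := by
    rw [abs_mul]
    calc _ ≤ (((D : ℝ) + 1) ^ 2 * M * (1 / n + τ)) * M ^ L.length :=
          mul_le_mul (T1_prev_le (by omega) h _ _) hR (abs_nonneg _) (by positivity)
      _ = ((D : ℝ) + 1) ^ 2 * (M ^ L.length * M) * (1 / n + τ) := by ring
      _ ≤ _ := by gcongr
  have b2 : |Qf i (fun g => prodF L g fun a => (x a).1) g (x a).1 (x b).1| ≤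
      2 * (L.length : ℝ) * ((D : ℝ) + 1) ^ 2 * N * e := by
    refine (Q_Dab_prodF h _ _ L hL _).trans ?_
    have hp : M ^ (L.length + 1) ≤ N := pow_le_pow_right₀ h.one_le (by omega)
    calc (L.length : ℝ) * (2 * ((D : ℝ) + 1) ^ 2 * M ^ (L.length + 1) / n)
        = 2 * (L.length : ℝ) * ((D : ℝ) + 1) ^ 2 * M ^ (L.length + 1) * (1 / n) := by ring
      _ ≤ _ := by gcongr
  have b3 : |t * β * (R * ∑ l, (Q i g (x a).1 (x b).1 (tiltT m g (x l).1) -
        ∑ u, pW β m t θ z g u * Q i g (x a).1 (x b).1 (tiltT m g u.1)))| ≤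
      2 * |β| * k * m * ((D : ℝ) + 1) ^ 2 * N * e := by
    set B : ℝ := m * (((D : ℝ) + 1) * M ^ 2) with hB
    have hB0 : 0 ≤ B := by positivity
    have hl : ∀ l : Fin k, |Q i g (x a).1 (x b).1 (tiltT m g (x l).1) -
        ∑ u, pW β m t θ z g u * Q i g (x a).1 (x b).1 (tiltT m g u.1)| ≤ B + B := by
      intro l
      refine (abs_sub _ _).trans (add_le_add (Q_tiltT_le hm h _ _ _) ?_)
      refine (Finset.abs_sum_le_sum_abs _ _).trans ?_
      calc ∑ u, |pW β m t θ z g u * Q i g (x a).1 (x b).1 (tiltT m g u.1)|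
          ≤ ∑ u, pW β m t θ z g u * B := Finset.sum_le_sum fun u _ => by
            rw [abs_mul, abs_of_nonneg (pW_nonneg hz g u)]
            exact mul_le_mul_of_nonneg_left (Q_tiltT_le hm h _ _ _) (pW_nonneg hz g u)
        _ = B := by rw [← Finset.sum_mul, sum_pW hn hz, one_mul]
    rw [abs_mul, abs_mul, abs_mul]
    calc |t| * |β| * (|R| * |∑ l, (Q i g (x a).1 (x b).1 (tiltT m g (x l).1) -
          ∑ u, pW β m t θ z g u * Q i g (x a).1 (x b).1 (tiltT m g u.1))|)
        ≤ |t| * |β| * (M ^ L.length * ((k : ℝ) * (B + B))) := by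
          gcongr
          refine (Finset.abs_sum_le_sum_abs _ _).trans ((Finset.sum_le_card_nsmul _ _ (B + B)
            fun l _ => hl l).trans_eq ?_)
          rw [Finset.card_univ, Fintype.card_fin, nsmul_eq_mul]
      _ = 2 * |β| * k * m * ((D : ℝ) + 1) ^ 1 * N * |t| := by rw [hB, hN, pow_add]; ring
      _ ≤ _ := by
          gcongr
          · have := Nat.cast_nonneg (α := ℝ) D; linarith
          · norm_num
  unfold stepConst
  linarith [b1, b2, b3]

theorem continuous_T1 (i : ℕ) (s s' : Fin n → Bool) : Continuous fun g => T1 i g s s' :=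
  (continuous_finsetSum _ fun a _ => continuous_finsetSum _ fun c _ =>
    continuous_const.mul (Tame.Dab (a, c) (Tame.uVec i s' c)).continuous).div_const _

theorem continuous_Q_uVec (i : ℕ) (s s' : Fin n → Bool) {F : Fin n → Fin n → Cfg n → ℝ}
    (hF : ∀ a c, Continuous (F a c)) : Continuous fun g => Q i g s s' fun a c => F a c g :=
  (continuous_finsetSum _ fun a _ => continuous_finsetSum _ fun c _ =>
    (continuous_const.mul (Tame.uVec i s' c).continuous).mul (hF a c)).div_const _

theorem continuous_stepErr (hn : ∀ i, 0 < nn i) {z : Z ξ n nn} (hz : GoodTree ξ.r nn z.1) (i : ℕ)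
    (a b : Fin k) (L : List (ℕ × Fin k × Fin k)) :
    Continuous fun g => stepErr β m t θ z i a b L g := by
  have hR : ∀ x : Fin k → X ξ n nn, Continuous fun g => prodF L g fun a => (x a).1 :=
    fun x => (tame_prodF L _).continuous
  have hT : ∀ (s s' : Fin n → Bool) (u : Fin n → Bool),
      Continuous fun g => Q i g s s' (tiltT m g u) := fun s s' u =>
    continuous_Q_uVec i s s' fun a c => continuous_finsetSum _ fun p _ =>
      (Tame.uVec p u a).continuous.mul (Tame.uVec (m - 1 - p) u c).continuous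
  refine continuous_finsetSum _ fun x _ => (continuous_W hn hz x).mul ((((continuous_T1 i _ _).sub
    (Tame_prev i _ _).continuous).mul (hR x)).add ?_ |>.add ?_)
  · exact continuous_Q_uVec i _ _ fun a c => (Tame.Dab (a, c) (tame_prodF L _)).continuous
  · exact continuous_const.mul ((hR x).mul (continuous_finsetSum _ fun l _ =>
      (hT _ _ _).sub (continuous_finsetSum _ fun u _ =>
        (contDiff_pW hn hz u).continuous.mul (hT _ _ _))))

/-- The identity at fixed cascade and fields, with its remainder bounded. -/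
theorem step_at {D K i : ℕ} (hB : Big β n K) (hD : D ≤ K) (hn : ∀ i, 0 < nn i)
    {z : Z ξ n nn} (hz : GoodTree ξ.r nn z.1) (a b : Fin k) (L : List (ℕ × Fin k × Fin k))
    (hL : ∀ f ∈ L, i + f.1 ≤ D) (hm : i + m ≤ D) (hq : D * (L.length + 3) ≤ 2 * K)
    (ht : |t| ≤ 1) :
    |mean (fun g => avg β m t θ z g fun x : Fin k → X ξ n nn =>
        prodF ((i + 1, a, b) :: L) g fun a => (x a).1) -
      mean (stepMain β m t θ z i a b L)| ≤
      stepConst β k m D L.length * (2 * ((K : ℝ) + 1)) ^ (L.length + 2) *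
          (1 / (n : ℝ) + 1 / Real.sqrt n + |t|) +
        3 * stepConst β k m D L.length * ((n : ℝ) ^ (2 * K))⁻¹ := by
  obtain ⟨hn0, hn4⟩ := big_pos hB
  have hn1 : (0 : ℝ) < n := by linarith
  have hc : 0 ≤ stepConst β k m D L.length := by unfold stepConst; positivity
  have hmain : Integrable (stepMain β m t θ z i a b L) (gauss (Edge n)) :=
    (((integrable_finsetSum _ fun l _ => (tame1_avg_prodF hn hz _).integrable)).sub
      (((tame1_avg_prodF hn hz _).integrable).const_mul _)).const_mul _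
  have hq4 : 4 * ((D * (L.length + 3) : ℕ) : ℝ) ≤ n := by
    have hqR : ((D * (L.length + 3) : ℕ) : ℝ) ≤ 2 * K := by exact_mod_cast hq
    have := big_mono hB (c := 8) (j := 1) (by norm_num) (by norm_num) (by norm_num)
    linarith
  have hP : (gauss (Edge n)).real {g : Cfg n | ¬ Good K g} ≤
      ((n : ℝ) ^ (3 * (D * (L.length + 3)) + 2 * (2 * K)))⁻¹ :=
    (prob_bad hB).trans
      (inv_anti₀ (by positivity) (pow_le_pow_right₀ (by linarith) (by omega)))
  have hcrude : ∀ g, |stepErr β m t θ z i a b L g| ≤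
      3 * stepConst β k m D L.length * msize g ^ (D * (L.length + 3)) := by
    intro g
    refine (abs_stepErr_le (formBd_crude D g) hn hz a b L hL hm).trans ?_
    have h1 : (1 : ℝ) ≤ msize g ^ D := one_le_pow₀ (one_le_msize g)
    have h2 : 1 / (n : ℝ) ≤ 1 := by rw [div_le_one hn1]; linarith
    calc stepConst β k m D L.length * (msize g ^ D) ^ (L.length + 2) *
          (1 / (n : ℝ) + msize g ^ D + |t|)
        ≤ stepConst β k m D L.length * (msize g ^ D) ^ (L.length + 2) * (3 * msize g ^ D) := by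
          gcongr; linarith
      _ = _ := by rw [pow_mul, pow_succ (msize g ^ D) (L.length + 2)]; ring
  have hgood : ∀ g, g ∉ {g : Cfg n | ¬ Good K g} → |stepErr β m t θ z i a b L g| ≤
      stepConst β k m D L.length * (2 * ((K : ℝ) + 1)) ^ (L.length + 2) *
        (1 / (n : ℝ) + 1 / Real.sqrt n + |t|) := fun g hg =>
    abs_stepErr_le (formBd_good (not_not.1 hg) hD) hn hz a b L hL hm
  obtain ⟨hEi, hE⟩ := mean_le_off (by linarith : (8 : ℝ) ≤ n) (measurableSet_good K).compl hq4 hP
    (continuous_stepErr (β := β) (m := m) (t := t) (θ := θ) hn hz i a b L).measurable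
    (by positivity) (by positivity) hgood hcrude
  have hT : ∀ x : Fin k → X ξ n nn,
      Tame1 fun g => W β m t θ z g x * prodF L g fun a => (x a).1 :=
    fun x => (tame1_W hn hz x).mul (Tame1.of_tame (tame_prodF L _))
  have hnn : n ≠ 0 := by rintro rfl; simp at hn1
  have key : mean (fun g => avg β m t θ z g fun x : Fin k → X ξ n nn =>
      prodF ((i + 1, a, b) :: L) g fun a => (x a).1) =
      mean (fun g => stepErr β m t θ z i a b L g + stepMain β m t θ z i a b L g) := by
    simp only [← ibp_split hn hz i a b L, mean]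
    rw [integral_finsetSum _ fun x _ => (ibp_form hnn i _ _ (hT x)).1]
    have e : ∀ g, avg β m t θ z g (fun x : Fin k → X ξ n nn =>
        prodF ((i + 1, a, b) :: L) g fun a => (x a).1) = ∑ x : Fin k → X ξ n nn,
          bform (i + 1) g (x a).1 (x b).1 * (W β m t θ z g x * prodF L g fun a => (x a).1) := by
      intro g
      refine Finset.sum_congr rfl fun x _ => ?_
      simp only [prodF_cons]
      ring
    simp only [e]
    rw [integral_finsetSum _ fun x _ =>
      ((Tame1.of_tame (Tame.bform _ _ _)).mul (hT x)).integrable]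
    exact Finset.sum_congr rfl fun x _ => (ibp_form hnn i _ _ (hT x)).2
  rw [key]
  simp only [mean]
  rw [integral_add hEi hmain, add_sub_cancel_right]
  exact hE

variable (ξ nn β m t θ) in
/-- The state mean of a product of forms. -/
def sd (n : ℕ) (L : List (ℕ × Fin k × Fin k)) : ℝ :=
  stateMean (n := n) ξ nn β m t θ fun g x => prodF L g fun a => (x a).1

theorem sd_eq (L : List (ℕ × Fin k × Fin k)) :
    sd ξ nn β m t θ n L = ∫ z, mean (fun g => avg β m t θ z g fun x : Fin k → X ξ n nn =>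
        prodF L g fun a => (x a).1) ∂augLaw ξ n nn ∧
      Integrable (fun z => mean (fun g => avg β m t θ z g fun x : Fin k → X ξ n nn =>
        prodF L g fun a => (x a).1)) (augLaw ξ n nn) :=
  state_eq (fun _ => (tame_prodF L _).continuous.measurable)
    (B := fun g => ∑ s : Fin k → Fin n → Bool, |prodF L g s|)
    (fun _ => Finset.sum_nonneg fun _ _ => abs_nonneg _)
    (integrable_finsetSum _ fun s _ => (tame_prodF L s).integrable.abs)
    (fun g _ => Finset.single_le_sum (f := fun s => |prodF L g s|) (fun _ _ => abs_nonneg _)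
      (Finset.mem_univ _))

theorem mem_fst_le {L : List (ℕ × Fin k × Fin k)} {f : ℕ × Fin k × Fin k} (h : f ∈ L) :
    f.1 ≤ (L.map Prod.fst).sum :=
  List.le_sum_of_mem (List.mem_map.2 ⟨f, h, rfl⟩)

theorem eventually_big (hβ : 0 ≤ β) {K : ℕ} (hK : 2 ≤ K) : ∀ᶠ n : ℕ in atTop, Big β n K :=
  (tendsto_natCast_atTop_atTop.eventually_ge_atTop _).mono fun _ h => ⟨hK, hβ, h⟩

/-- Lowering the degree of the first form. -/
theorem step (hβ : 0 ≤ β) (m i : ℕ) (a b : Fin k) (L : List (ℕ × Fin k × Fin k)) :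
    ∃ C : ℝ, 0 ≤ C ∧ ∀ ε > 0, ∀ᶠ n : ℕ in atTop, ∀ (ξ : Path) (nn : Fin ξ.r → ℕ),
      (∀ j, 0 < nn j) → ∀ t θ : ℝ, |t| ≤ 1 →
        |sd ξ nn β m t θ n ((i + 1, a, b) :: L) - β * Real.sin θ *
            ((∑ l, sd ξ nn β m t θ n ((0, a, l) :: (i, l, b) :: L)) - (k : ℝ) *
              sd ξ nn β m t θ n
                ((0, a.castSucc, Fin.last k) :: (i, Fin.last k, b.castSucc) :: up L))| ≤
          C * |t| + ε := by
  set D := i + m + (L.map Prod.fst).sum
  set K := D * (L.length + 3) + 2 with hK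
  set A := stepConst β k m D L.length * (2 * ((K : ℝ) + 1)) ^ (L.length + 2) with hA
  have hc : 0 ≤ stepConst β k m D L.length := by unfold stepConst; positivity
  refine ⟨A, by positivity, fun ε hε => ?_⟩
  have hlim : Tendsto (fun n : ℕ =>
      (2 * A + 3 * stepConst β k m D L.length) / Real.sqrt n) atTop (𝓝 0) :=
    tendsto_const_nhds.div_atTop (Real.tendsto_sqrt_atTop.comp tendsto_natCast_atTop_atTop)
  filter_upwards [eventually_big hβ (K := K) (by omega), hlim.eventually (eventually_le_nhds hε)]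
    with n hB hsmall ξ nn hn t θ ht
  obtain ⟨hn0, hn4⟩ := big_pos hB
  have hn1 : (0 : ℝ) < n := by linarith
  have hs : 0 < Real.sqrt n := Real.sqrt_pos.2 hn1
  set c := β * Real.sin θ
  set Lo : Fin k → List (ℕ × Fin k × Fin k) := fun l => (0, a, l) :: (i, l, b) :: L
  set Ln := (0, a.castSucc, Fin.last k) :: (i, Fin.last k, b.castSucc) :: up L
  obtain ⟨e0, i0⟩ := sd_eq (ξ := ξ) (nn := nn) (β := β) (m := m) (t := t) (θ := θ) (n := n)
    ((i + 1, a, b) :: L)
  obtain ⟨e2, i2⟩ := sd_eq (ξ := ξ) (nn := nn) (β := β) (m := m) (t := t) (θ := θ) (n := n) Ln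
  have h1 := fun l => sd_eq (ξ := ξ) (nn := nn) (β := β) (m := m) (t := t) (θ := θ) (n := n) (Lo l)
  have i1 := integrable_finsetSum (Finset.univ : Finset (Fin k)) fun l _ => (h1 l).2
  have hl : ∀ l, sd ξ nn β m t θ n ((0, a, l) :: (i, l, b) :: L) = ∫ z, mean (fun g =>
      avg β m t θ z g fun x : Fin k → X ξ n nn => prodF (Lo l) g fun a => (x a).1)
        ∂augLaw ξ n nn := fun l => (h1 l).1
  simp only [hl, e0, e2]
  rw [← integral_finsetSum _ fun l _ => (h1 l).2, ← integral_const_mul,
    ← integral_sub i1 (i2.const_mul _), ← integral_const_mul]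
  have i3 : Integrable (fun z => c * ((∑ l, mean fun g => avg β m t θ z g
      fun x : Fin k → X ξ n nn => prodF (Lo l) g fun a => (x a).1) - (k : ℝ) * mean fun g =>
        avg β m t θ z g fun x : Fin (k + 1) → X ξ n nn => prodF Ln g fun a => (x a).1))
      (augLaw ξ n nn) := (i1.sub (i2.const_mul _)).const_mul c
  rw [← integral_sub i0 i3]
  rw [← Real.norm_eq_abs]
  refine le_trans (norm_integral_le_of_norm_le_const (C := A * |t| + ε) ?_)
    (le_of_eq (by rw [probReal_univ, mul_one]))
  filter_upwards [ae_good] with z hz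
  rw [Real.norm_eq_abs]
  have he : mean (stepMain β m t θ z i a b L) = c * ((∑ l, mean fun g => avg β m t θ z g
      fun x : Fin k → X ξ n nn => prodF (Lo l) g fun a => (x a).1) - (k : ℝ) * mean fun g =>
        avg β m t θ z g fun x : Fin (k + 1) → X ξ n nn => prodF Ln g fun a => (x a).1) := by
    simp only [mean]
    unfold stepMain
    rw [integral_const_mul, integral_sub, integral_finsetSum, integral_const_mul]
    · exact fun l _ => (tame1_avg_prodF hn hz _).integrable
    · exact integrable_finsetSum _ fun l _ => (tame1_avg_prodF hn hz _).integrable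
    · exact (tame1_avg_prodF hn hz _).integrable.const_mul _
  have hstep := step_at (t := t) (θ := θ) (D := D) (i := i) (m := m) hB
    ((Nat.le_mul_of_pos_right D (by omega : 0 < L.length + 3)).trans (Nat.le_add_right _ 2))
    hn hz a b L (fun f hf => by have := mem_fst_le hf; omega) (by omega) (by omega) ht
  rw [he] at hstep
  refine hstep.trans ?_
  have h2 : 1 / (n : ℝ) ≤ 1 / Real.sqrt n :=
    one_div_le_one_div_of_le hs (Real.sqrt_le_iff.2 ⟨hn1.le, le_self_pow₀ (by linarith) (by norm_num)⟩)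
  have h3 : ((n : ℝ) ^ (2 * K))⁻¹ ≤ 1 / Real.sqrt n := by
    rw [one_div]
    exact inv_anti₀ hs ((Real.sqrt_le_iff.2 ⟨hn1.le, le_self_pow₀ (by linarith) (by norm_num)⟩).trans
      (le_self_pow₀ (by linarith) (by omega)))
  rw [← hA]
  calc A * (1 / (n : ℝ) + 1 / Real.sqrt n + |t|) +
        3 * stepConst β k m D L.length * ((n : ℝ) ^ (2 * K))⁻¹
      ≤ A * (1 / Real.sqrt n + 1 / Real.sqrt n + |t|) +
        3 * stepConst β k m D L.length * (1 / Real.sqrt n) := by gcongr
    _ = A * |t| + (2 * A + 3 * stepConst β k m D L.length) / Real.sqrt n := by ring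
    _ ≤ _ := by linarith

end Vale.Agent.P146.Div.Rec
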