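import Vale.Agent.P146.Div.Rec.Forms

/-!
Replica weights at fixed cascade and fields: smoothness, derivatives and bounds.
-/

noncomputable section

open MeasureTheory ProbabilityTheory
open scoped BigOperators

namespace Vale.Agent.P146.Div.Rec

open Vale.Agent.P157 (gam)
open Vale.Agent.P157.Parisi (Path)
open Vale.Agent.P157.Parisi.Up (Node)
open Vale.Agent.P168 (CascTree cascLaw Shape)
open Vale.Agent.P168.Cascade (Leaf leafW GoodTree)

variable {n : ℕ}

/-- Smooth, with polynomial growth of the function and of its first derivatives. -/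
structure Tame1 {ι : Type*} [Fintype ι] [DecidableEq ι] (f : (ι → ℝ) → ℝ) : Prop where
  smooth : ContDiff ℝ (⊤ : ℕ∞) f
  bd : PolyBd f
  pdBd : ∀ e, PolyBd (pd e f)

theorem Tame1.of_tame {ι : Type*} [Fintype ι] [DecidableEq ι] {f : (ι → ℝ) → ℝ} (hf : Tame f) :
    Tame1 f :=
  ⟨hf.1, hf.2 [], fun e => hf.2 [e]⟩

theorem Tame1.mul {ι : Type*} [Fintype ι] [DecidableEq ι] {f h : (ι → ℝ) → ℝ} (hf : Tame1 f)
    (hh : Tame1 h) : Tame1 (fun g => f g * h g) where
  smooth := hf.smooth.mul hh.smooth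
  bd := hf.bd.mul hh.bd
  pdBd e := by
    rw [pd_mul_smooth e hf.smooth hh.smooth]
    exact ((hf.pdBd e).mul hh.bd).add (hf.bd.mul (hh.pdBd e))

theorem PolyBd.sum {ι : Type*} [Fintype ι] {α : Type*} (s : Finset α) {f : α → (ι → ℝ) → ℝ}
    (hf : ∀ a ∈ s, PolyBd (f a)) : PolyBd (fun g => ∑ a ∈ s, f a g) := by
  induction s using Finset.cons_induction with
  | empty => simpa using PolyBd.const (ι := ι) 0
  | cons a s ha ih =>
    simp only [Finset.sum_cons]
    exact (hf a (Finset.mem_cons_self _ _)).add (ih fun b hb => hf b (Finset.mem_cons.2 (Or.inr hb)))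

theorem Tame1.sum {ι : Type*} [Fintype ι] [DecidableEq ι] {α : Type*} (s : Finset α)
    {f : α → (ι → ℝ) → ℝ} (hf : ∀ a ∈ s, Tame1 (f a)) : Tame1 (fun g => ∑ a ∈ s, f a g) where
  smooth := ContDiff.sum fun a ha => (hf a ha).smooth
  bd := PolyBd.sum s fun a ha => (hf a ha).bd
  pdBd e := by
    have h : pd e (fun g => ∑ a ∈ s, f a g) = fun g => ∑ a ∈ s, pd e (f a) g := by
      funext g
      simp [P146.pd, fderiv_fun_sum fun a ha => differentiable_of_smooth (hf a ha).smooth g]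
    rw [h]
    exact PolyBd.sum s fun a ha => (hf a ha).pdBd e

theorem Tame1.integrable {ι : Type*} [Fintype ι] [DecidableEq ι] {f : (ι → ℝ) → ℝ}
    (hf : Tame1 f) : Integrable f (gauss ι) :=
  integrable_of_polyBd hf.smooth.continuous.aestronglyMeasurable hf.bd

/-! ### The sample space of the cascade and the fields -/

/-- A cascade with its fields. -/
abbrev Z (ξ : Path) (n : ℕ) (nn : Fin ξ.r → ℕ) : Type :=
  CascTree Unit ξ.r nn × FieldVar ξ.r n nn

/-- A configuration and a leaf. -/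
abbrev X (ξ : Path) (n : ℕ) (nn : Fin ξ.r → ℕ) : Type := (Fin n → Bool) × Leaf ξ.r nn

variable {ξ : Path} {nn : Fin ξ.r → ℕ} {β : ℝ} {m : ℕ} {t θ : ℝ} {k : ℕ}

theorem ae_good : ∀ᵐ z ∂augLaw ξ n nn, GoodTree ξ.r nn z.1 :=
  (Measure.quasiMeasurePreserving_fst (μ := cascLaw (Measure.dirac ()) ξ.r nn)
    (ν := fieldLaw ξ.r n nn)).ae (Vale.Agent.P168.Cascade.ae_good (Measure.dirac ()) ξ.r nn)

instance instProbAug : IsProbabilityMeasure (augLaw ξ n nn) := by
  unfold augLaw fieldLaw gam; infer_instance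

/-- The log-weight depending on the matrix. -/
abbrev lw (β : ℝ) (m : ℕ) (t θ : ℝ) (g : Cfg n) : (Fin n → Bool) → ℝ := interpH β m t θ g

/-- The Gibbs weight of one configuration and leaf. -/
def pW (β : ℝ) (m : ℕ) (t θ : ℝ) (z : Z ξ n nn) (g : Cfg n) (y : X ξ n nn) : ℝ :=
  jointGibbs ξ nn (interpH β m t θ g) (β * Real.cos θ) z y

/-- The weight of `k` replicas. -/
def W (β : ℝ) (m : ℕ) (t θ : ℝ) (z : Z ξ n nn) (g : Cfg n) (x : Fin k → X ξ n nn) : ℝ :=
  ∏ a, pW β m t θ z g (x a)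

/-- The average over the replicas. -/
def avg (β : ℝ) (m : ℕ) (t θ : ℝ) (z : Z ξ n nn) (g : Cfg n)
    (Φ : (Fin k → X ξ n nn) → ℝ) : ℝ :=
  ∑ x, W β m t θ z g x * Φ x

theorem Tame_energy (s : Fin n → Bool) : Tame (fun g : Cfg n => P146.energy g s) := by
  simp only [energy_eq, mul_comm _ (slope s _)]
  exact Tame.sum _ fun p _ => Tame.const_mul _ (Tame.coord _)

theorem Tame_interpH (β : ℝ) (m : ℕ) (t θ : ℝ) (s : Fin n → Bool) :
    Tame (fun g : Cfg n => interpH β m t θ g s) := by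
  unfold interpH
  exact (Tame.const_mul _ (Tame_energy s)).add
    (Tame.const_mul _ (Tame.const_mul _ (Tame.bform m s s)))

theorem joint_pos {z : Z ξ n nn} (hz : GoodTree ξ.r nn z.1) (h : (Fin n → Bool) → ℝ) (c : ℝ)
    (x : X ξ n nn) : 0 < joint ξ nn h c z x :=
  mul_pos (Vale.Agent.P168.Cascade.leafW_pos _ _ _ _ _ hz) (Real.exp_pos _)

theorem pW_nonneg {z : Z ξ n nn} (hz : GoodTree ξ.r nn z.1) (g : Cfg n) (y : X ξ n nn) :
    0 ≤ pW β m t θ z g y :=
  div_nonneg (joint_pos hz _ _ _).le (Finset.sum_nonneg fun _ _ => (joint_pos hz _ _ _).le)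

theorem sum_pW_le {z : Z ξ n nn} (hz : GoodTree ξ.r nn z.1) (g : Cfg n) :
    ∑ y, pW β m t θ z g y ≤ 1 := by
  simp only [pW, jointGibbs, ← Finset.sum_div]
  exact div_le_one_of_le₀ le_rfl (Finset.sum_nonneg fun _ _ => (joint_pos hz _ _ _).le)

theorem sum_pW (hn : ∀ i, 0 < nn i) {z : Z ξ n nn} (hz : GoodTree ξ.r nn z.1) (g : Cfg n) :
    ∑ y, pW β m t θ z g y = 1 := by
  have : Nonempty (X ξ n nn) := ⟨fun _ => true, fun i => ⟨0, hn i⟩⟩
  simp only [pW, jointGibbs, ← Finset.sum_div]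
  exact div_self (Finset.sum_pos (fun _ _ => joint_pos hz _ _ _) Finset.univ_nonempty).ne'

theorem pW_le_one {z : Z ξ n nn} (hz : GoodTree ξ.r nn z.1) (g : Cfg n) (y : X ξ n nn) :
    pW β m t θ z g y ≤ 1 :=
  (Finset.single_le_sum (fun y _ => pW_nonneg hz g y) (Finset.mem_univ y)).trans (sum_pW_le hz g)

theorem W_nonneg {z : Z ξ n nn} (hz : GoodTree ξ.r nn z.1) (g : Cfg n) (x : Fin k → X ξ n nn) :
    0 ≤ W β m t θ z g x :=
  Finset.prod_nonneg fun _ _ => pW_nonneg hz g _

theorem W_le_one {z : Z ξ n nn} (hz : GoodTree ξ.r nn z.1) (g : Cfg n) (x : Fin k → X ξ n nn) :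
    W β m t θ z g x ≤ 1 :=
  Finset.prod_le_one (fun _ _ => pW_nonneg hz g _) fun _ _ => pW_le_one hz g _

theorem sum_W_eq (z : Z ξ n nn) (g : Cfg n) :
    ∑ x : Fin k → X ξ n nn, W β m t θ z g x = (∑ y, pW β m t θ z g y) ^ k := by
  simp only [W]
  exact (Fintype.sum_pow (fun y => pW β m t θ z g y) k).symm

theorem sum_W_le {z : Z ξ n nn} (hz : GoodTree ξ.r nn z.1) (g : Cfg n) :
    ∑ x : Fin k → X ξ n nn, W β m t θ z g x ≤ 1 := by
  rw [sum_W_eq]
  exact pow_le_one₀ (Finset.sum_nonneg fun y _ => pW_nonneg hz g y) (sum_pW_le hz g)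

theorem avg_one (hn : ∀ i, 0 < nn i) {z : Z ξ n nn} (hz : GoodTree ξ.r nn z.1) (g : Cfg n)
    (c : ℝ) : avg β m t θ z g (fun _ : Fin k → X ξ n nn => c) = c := by
  rw [avg, ← Finset.sum_mul, sum_W_eq, sum_pW hn hz, one_pow, one_mul]

theorem abs_avg_le {z : Z ξ n nn} (hz : GoodTree ξ.r nn z.1) (g : Cfg n)
    {Φ : (Fin k → X ξ n nn) → ℝ} {B : ℝ} (hB : 0 ≤ B) (h : ∀ x, |Φ x| ≤ B) :
    |avg β m t θ z g Φ| ≤ B := by
  refine (Finset.abs_sum_le_sum_abs _ _).trans ?_
  calc ∑ x, |W β m t θ z g x * Φ x| ≤ ∑ x : Fin k → X ξ n nn, W β m t θ z g x * B := by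
        refine Finset.sum_le_sum fun x _ => ?_
        rw [abs_mul, abs_of_nonneg (W_nonneg hz g x)]
        exact mul_le_mul_of_nonneg_left (h x) (W_nonneg hz g x)
    _ ≤ B := by
        rw [← Finset.sum_mul]
        exact mul_le_of_le_one_left hB (sum_W_le hz g)

/-! ### Derivatives -/

theorem contDiff_joint (z : Z ξ n nn) (y : X ξ n nn) :
    ContDiff ℝ (⊤ : ℕ∞) (fun g : Cfg n =>
      joint ξ nn (interpH β m t θ g) (β * Real.cos θ) z y) := by
  unfold joint
  exact contDiff_const.mul (Real.contDiff_exp.comp ((Tame_interpH β m t θ y.1).1.add contDiff_const))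

theorem sum_joint_pos (hn : ∀ i, 0 < nn i) {z : Z ξ n nn} (hz : GoodTree ξ.r nn z.1)
    (h : (Fin n → Bool) → ℝ) (c : ℝ) : 0 < ∑ y, joint ξ nn h c z y := by
  have : Nonempty (X ξ n nn) := ⟨fun _ => true, fun i => ⟨0, hn i⟩⟩
  exact Finset.sum_pos (fun _ _ => joint_pos hz _ _ _) Finset.univ_nonempty

theorem contDiff_pW (hn : ∀ i, 0 < nn i) {z : Z ξ n nn} (hz : GoodTree ξ.r nn z.1)
    (y : X ξ n nn) : ContDiff ℝ (⊤ : ℕ∞) (fun g => pW β m t θ z g y) :=
  (contDiff_joint z y).div (ContDiff.sum fun _ _ => contDiff_joint z _)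
    fun _ => (sum_joint_pos hn hz _ _).ne'

theorem pd_joint (z : Z ξ n nn) (y : X ξ n nn) (e : Edge n) :
    pd e (fun g => joint ξ nn (interpH β m t θ g) (β * Real.cos θ) z y) = fun g =>
      joint ξ nn (interpH β m t θ g) (β * Real.cos θ) z y *
        pd e (fun g => interpH β m t θ g y.1) g := by
  funext g
  have h := ((differentiable_of_smooth (Tame_interpH β m t θ y.1).1 g).hasFDerivAt.add_const
    (β * Real.cos θ * fieldE ξ nn z.2 y.1 y.2)).exp.const_mul (leafW ξ.r ξ.m nn z.1 y.2)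
  simp only [pd]
  unfold joint
  rw [h.fderiv]
  simp only [FunLike.coe_smul, Pi.smul_apply, smul_eq_mul]
  ring

theorem pd_pW (hn : ∀ i, 0 < nn i) {z : Z ξ n nn} (hz : GoodTree ξ.r nn z.1)
    (y : X ξ n nn) (e : Edge n) :
    pd e (fun g => pW β m t θ z g y) = fun g => pW β m t θ z g y *
      (pd e (fun g => interpH β m t θ g y.1) g -
        ∑ u, pW β m t θ z g u * pd e (fun g => interpH β m t θ g u.1) g) := by
  funext g
  set S : Cfg n → ℝ := fun g => ∑ u, joint ξ nn (interpH β m t θ g) (β * Real.cos θ) z u with hS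
  have hSc : ContDiff ℝ (⊤ : ℕ∞) S := ContDiff.sum fun u _ => contDiff_joint z u
  have hne : ∀ g, S g ≠ 0 := fun g => (sum_joint_pos hn hz _ _).ne'
  have hmul : (fun g => joint ξ nn (interpH β m t θ g) (β * Real.cos θ) z y) =
      fun g => pW β m t θ z g y * S g := by
    funext g
    exact (div_mul_cancel₀ _ (hne g)).symm
  have hpS : pd e S g = ∑ u, joint ξ nn (interpH β m t θ g) (β * Real.cos θ) z u *
      pd e (fun g => interpH β m t θ g u.1) g := by
    simp only [hS, pd]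
    rw [fderiv_fun_sum fun u _ => differentiable_of_smooth (contDiff_joint z u) g]
    simp only [FunLike.coe_sum, Finset.sum_apply]
    exact Finset.sum_congr rfl fun u _ => congrFun (pd_joint z u e) g
  have key := congrFun (congrArg (pd e) hmul) g
  rw [pd_mul_smooth e (contDiff_pW hn hz y) hSc, pd_joint] at key
  have hjp : ∀ u, joint ξ nn (interpH β m t θ g) (β * Real.cos θ) z u =
      pW β m t θ z g u * S g := fun u => (div_mul_cancel₀ _ (hne g)).symm
  have hsum : ∑ u, pW β m t θ z g u * S g * pd e (fun g => interpH β m t θ g u.1) g =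
      S g * ∑ u, pW β m t θ z g u * pd e (fun g => interpH β m t θ g u.1) g := by
    rw [Finset.mul_sum]
    exact Finset.sum_congr rfl fun u _ => by ring
  simp only [hpS, hjp] at key
  rw [hsum] at key
  refine mul_right_cancel₀ (hne g) ?_
  linarith [key]

theorem pd_W (hn : ∀ i, 0 < nn i) {z : Z ξ n nn} (hz : GoodTree ξ.r nn z.1)
    (x : Fin k → X ξ n nn) (e : Edge n) :
    pd e (fun g => W β m t θ z g x) = fun g => W β m t θ z g x *
      ∑ a, (pd e (fun g => interpH β m t θ g (x a).1) g -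
        ∑ u, pW β m t θ z g u * pd e (fun g => interpH β m t θ g u.1) g) := by
  classical
  funext g
  have h := HasFDerivAt.finsetProd (u := (Finset.univ : Finset (Fin k)))
    fun a _ => (differentiable_of_smooth (contDiff_pW (β := β) (m := m) (t := t) (θ := θ) hn hz
      (x a)) g).hasFDerivAt
  simp only [pd]
  rw [show (fun g => W β m t θ z g x) = fun g => ∏ a, pW β m t θ z g (x a) from rfl, h.fderiv]
  simp only [FunLike.coe_sum, Finset.sum_apply, FunLike.coe_smul, Pi.smul_apply, smul_eq_mul,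
    Finset.mul_sum]
  refine Finset.sum_congr rfl fun a _ => ?_
  have := congrFun (pd_pW (β := β) (m := m) (t := t) (θ := θ) hn hz (x a) e) g
  simp only [pd] at this
  rw [this, W, ← Finset.mul_prod_erase _ _ (Finset.mem_univ a)]
  ring

theorem tame1_W (hn : ∀ i, 0 < nn i) {z : Z ξ n nn} (hz : GoodTree ξ.r nn z.1)
    (x : Fin k → X ξ n nn) : Tame1 (fun g => W β m t θ z g x) where
  smooth := contDiff_prod fun a _ => contDiff_pW hn hz (x a)
  bd := ⟨1, 0, fun g => by
    rw [abs_of_nonneg (W_nonneg hz g x), pow_zero, mul_one]; exact W_le_one hz g x⟩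
  pdBd e := by
    rw [pd_W hn hz x e]
    have hp : ∀ u : X ξ n nn, PolyBd (fun g => pW β m t θ z g u) := fun u =>
      ⟨1, 0, fun g => by
        rw [abs_of_nonneg (pW_nonneg hz g u), pow_zero, mul_one]; exact pW_le_one hz g u⟩
    refine PolyBd.mul ⟨1, 0, fun g => by
      rw [abs_of_nonneg (W_nonneg hz g x), pow_zero, mul_one]; exact W_le_one hz g x⟩ ?_
    refine PolyBd.sum _ fun a _ => ?_
    have hneg : PolyBd (fun g => -∑ u, pW β m t θ z g u *
        pd e (fun g => interpH β m t θ g u.1) g) := by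
      obtain ⟨C, p, h⟩ := PolyBd.sum Finset.univ fun u _ =>
        (hp u).mul ((Tame_interpH β m t θ u.1).2 [e])
      exact ⟨C, p, fun g => by rw [abs_neg]; exact h g⟩
    simp only [sub_eq_add_neg]
    exact PolyBd.add ((Tame_interpH β m t θ (x a).1).2 [e]) hneg

/-- The derivative of the log-weight. -/
theorem Dab_interpH (β : ℝ) (m : ℕ) (t θ : ℝ) (s : Fin n → Bool) (a c : Fin n) (g : Cfg n) :
    Dab (a, c) (fun g => interpH β m t θ g s) g =
      β * Real.sin θ * (bond s (a, c) - if a = c then 1 else 0) +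
        t * β * ∑ p ∈ Finset.range m, uVec p g s a * uVec (m - 1 - p) g s c := by
  have hn : (n : ℝ) ≠ 0 := Nat.cast_ne_zero.2 (Nat.pos_iff_ne_zero.1 a.pos)
  have hE : Dab (a, c) (fun g => energy g s) g = bond s (a, c) - if a = c then 1 else 0 := by
    have h : pd s(a, c) (fun g => energy g s) g = dEnergy s s(a, c) := by
      rw [pd, (hasFDerivAt_energy g s).fderiv, proj_slope_single]
    simp only [Dab, h]
    by_cases hac : a = c
    · subst hac; simp [dEnergy_diag, bond_diag]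
    · simp [dfac, hac, dEnergy_off hac]
  unfold interpH
  rw [Dab_add _ (Tame.const_mul _ (Tame_energy s))
    (Tame.const_mul _ (Tame.const_mul _ (Tame.bform m s s)))]
  simp only [Dab_const_mul _ _ (Tame_energy s), Dab_const_mul _ _ (Tame.bform m s s),
    Dab_const_mul _ _ (Tame.const_mul (n : ℝ) (Tame.bform m s s)), hE, Dab_bform]
  congr 1
  rw [mul_div_cancel₀ _ hn, Finset.sum_add_distrib]
  conv_lhs => enter [2, 2]; rw [← Finset.sum_range_reflect]
  have e : ∑ j ∈ Finset.range m, uVec (m - 1 - j) g s c * uVec (m - 1 - (m - 1 - j)) g s a =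
      ∑ j ∈ Finset.range m, uVec j g s a * uVec (m - 1 - j) g s c := by
    refine Finset.sum_congr rfl fun j hj => ?_
    rw [Finset.mem_range] at hj
    rw [show m - 1 - (m - 1 - j) = j by omega, mul_comm]
  rw [e]
  ring

end Vale.Agent.P146.Div.Rec
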